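import Mathlib

/-!
Sequences in a short interval with integral differences of a fixed order alternate, for P057.
-/

namespace Vale.Agent.P057

open Finset fwdDiff

/-- The sign of the `i`-th value in the `n`-th forward difference, at `n = D + 1`. -/
noncomputable def wsum (D : ℕ) (y : ℕ → ℝ) : ℝ :=
  ∑ i ∈ range (D + 2), ((-1 : ℝ) ^ (D + 1 - i) * (D + 1).choose i) * y i

theorem wsum_eq (D : ℕ) (y : ℕ → ℝ) : wsum D y = (fwdDiff 1)^[D + 1] y 0 := by
  rw [fwdDiff_iter_eq_sum_shift]
  simp [wsum, zsmul_eq_mul]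

theorem iter_shift (n j : ℕ) (y : ℕ → ℝ) :
    (fwdDiff 1)^[n] (fun i => y (j + i)) 0 = (fwdDiff 1)^[n] y j := by
  simp [fwdDiff_iter_eq_sum_shift]

theorem wsum_const (D : ℕ) (w : ℝ) : wsum D (fun _ => w) = 0 := by
  rw [wsum_eq, Function.iterate_succ_apply, fwdDiff_const]
  simp [fwdDiff_iter_eq_sum_shift]

theorem sum_choose_le (D : ℕ) :
    ∑ i ∈ range (D + 2), ((D + 1).choose i : ℝ) = 2 ^ (D + 1) := by
  exact_mod_cast Nat.sum_range_choose (D + 1)

theorem wsum_abs (D : ℕ) {y : ℕ → ℝ} {w : ℝ} (hy : ∀ i ≤ D + 1, 0 ≤ y i ∧ y i ≤ w) :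
    |wsum D y| ≤ 2 ^ D * w := by
  have h : wsum D (fun i => y i - w / 2) = wsum D y := by
    have h' := wsum_const D (w / 2)
    simp only [wsum, mul_sub, sum_sub_distrib] at h' ⊢
    rw [h', sub_zero]
  rw [← h]
  refine (abs_sum_le_sum_abs _ _).trans ?_
  calc ∑ i ∈ range (D + 2), |((-1 : ℝ) ^ (D + 1 - i) * (D + 1).choose i) * (y i - w / 2)|
      ≤ ∑ i ∈ range (D + 2), ((D + 1).choose i : ℝ) * (w / 2) := by
        refine sum_le_sum fun i hi => ?_
        rw [abs_mul, abs_mul, abs_pow, abs_neg, abs_one, one_pow, one_mul, Nat.abs_cast]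
        refine mul_le_mul_of_nonneg_left ?_ (Nat.cast_nonneg _)
        have := hy i (by simp at hi; omega)
        rw [abs_le]; constructor <;> linarith
    _ = 2 ^ D * w := by rw [← sum_mul, sum_choose_le, pow_succ]; ring

/-- After a window with difference `1` the next one has negative difference. -/
theorem wsum_next (D : ℕ) {y : ℕ → ℝ} {w : ℝ}
    (hy : ∀ i ≤ D + 2, 0 ≤ y i ∧ y i ≤ w) (h : wsum D y = 1) :
    wsum D (fun i => y (i + 1)) ≤ w + D * (2 ^ D * w - 1) - 1 := by
  -- the slack of each value from its extreme position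
  let s : ℕ → ℝ := fun i => if Even (D + 1 - i) then w - y i else y i
  have hs : ∀ i ≤ D + 2, 0 ≤ s i := by
    intro i hi; simp only [s]; have := hy i hi; split <;> linarith
  have hy' : ∀ i, (-1 : ℝ) ^ (D + 1 - i) * y i = (if Even (D + 1 - i) then w else 0) - s i := by
    intro i; simp only [s]
    split
    · next he => rw [he.neg_one_pow]; ring
    · next he => rw [(Nat.not_even_iff_odd.1 he).neg_one_pow]; ring
  have hev : ∑ i ∈ range (D + 2), ((D + 1).choose i : ℝ) * (if Even (D + 1 - i) then w else 0)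
      = 2 ^ D * w := by
    have h0 := wsum_const D w
    have h1 := sum_choose_le D
    simp only [wsum] at h0
    have : ∀ i ∈ range (D + 2),
        ((D + 1).choose i : ℝ) * (if Even (D + 1 - i) then w else 0)
          = (((-1 : ℝ) ^ (D + 1 - i) * (D + 1).choose i) * w + ((D + 1).choose i : ℝ) * w) / 2 := by
      intro i _
      split
      · next he => rw [he.neg_one_pow]; ring
      · next he => rw [(Nat.not_even_iff_odd.1 he).neg_one_pow]; ring
    rw [sum_congr rfl this, ← sum_div, sum_add_distrib, h0, ← sum_mul, h1, pow_succ]; ring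
  have hslack : ∑ i ∈ range (D + 2), ((D + 1).choose i : ℝ) * s i = 2 ^ D * w - 1 := by
    have e : wsum D y = ∑ i ∈ range (D + 2),
        (((D + 1).choose i : ℝ) * (if Even (D + 1 - i) then w else 0) -
          ((D + 1).choose i : ℝ) * s i) := by
      refine sum_congr rfl fun i _ => ?_
      rw [← mul_sub, ← hy' i]; ring
    rw [sum_sub_distrib, hev, h] at e
    linarith
  -- the next window
  have key : wsum D (fun i => y (i + 1)) = y (D + 2) +
      ∑ i ∈ range (D + 1), ((D + 1).choose i : ℝ) *
        (s (i + 1) - if Even (D + 1 - (i + 1)) then w else 0) := by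
    rw [wsum, sum_range_succ]
    have : ∀ i ∈ range (D + 1), ((-1 : ℝ) ^ (D + 1 - i) * (D + 1).choose i) * y (i + 1)
        = ((D + 1).choose i : ℝ) * (s (i + 1) - if Even (D + 1 - (i + 1)) then w else 0) := by
      intro i hi
      have hi' : D + 1 - i = (D + 1 - (i + 1)) + 1 := by simp at hi; omega
      have := hy' (i + 1)
      rw [hi', pow_succ]
      linear_combination (-((D + 1).choose i : ℝ)) * this
    rw [sum_congr rfl this, show D + 1 + 1 = D + 2 from rfl]
    simp [add_comm]
  have hev2 : ∑ i ∈ range (D + 1), ((D + 1).choose i : ℝ) *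
      (if Even (D + 1 - (i + 1)) then w else 0) = 2 ^ D * w := by
    have h2 : ∑ i ∈ range (D + 2), ((D + 1).choose i : ℝ) *
        (if Even (D + 1 - i) then 0 else w) = 2 ^ D * w := by
      have e : ∀ i ∈ range (D + 2), ((D + 1).choose i : ℝ) * (if Even (D + 1 - i) then 0 else w)
          = ((D + 1).choose i : ℝ) * w
            - ((D + 1).choose i : ℝ) * (if Even (D + 1 - i) then w else 0) := by
        intro i _; split <;> ring
      rw [sum_congr rfl e, sum_sub_distrib, hev, ← sum_mul, sum_choose_le, pow_succ]; ring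
    rw [sum_range_succ] at h2
    simp only [Nat.sub_self, Even.zero, if_true, mul_zero, add_zero] at h2
    rw [← h2]
    refine sum_congr rfl fun i hi => ?_
    have hi' : D + 1 - i = (D + 1 - (i + 1)) + 1 := by simp at hi; omega
    rw [hi']
    by_cases he : Even (D + 1 - (i + 1))
    · rw [if_pos he, if_neg (by simpa [Nat.even_add_one] using he)]
    · rw [if_neg he, if_pos (Nat.even_add_one.2 he)]
  have hle : ∑ i ∈ range (D + 1), ((D + 1).choose i : ℝ) * s (i + 1) ≤
      (D + 1) * (2 ^ D * w - 1) := by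
    rw [← hslack, mul_sum, sum_range_succ' (n := D + 1)]
    refine le_add_of_le_of_nonneg (sum_le_sum fun i hi => ?_) ?_
    · simp at hi
      have hc : ((D + 1).choose i : ℝ) ≤ (D + 1) * (D + 1).choose (i + 1) := by
        have := Nat.choose_succ_right_eq (D + 1) i
        have h1 : (D + 1).choose i * 1 ≤ (D + 1).choose i * (D + 1 - i) :=
          Nat.mul_le_mul_left _ (by omega)
        have h2 : (D + 1).choose (i + 1) * (i + 1) ≤ (D + 1).choose (i + 1) * (D + 1) :=
          Nat.mul_le_mul_left _ (by omega)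
        have h3 : (D + 1).choose i ≤ (D + 1) * (D + 1).choose (i + 1) := by
          rw [mul_comm]; omega
        exact_mod_cast h3
      calc _ ≤ ((D + 1) * (D + 1).choose (i + 1) : ℝ) * s (i + 1) :=
            mul_le_mul_of_nonneg_right hc (hs _ (by omega))
        _ = _ := by ring
    · exact mul_nonneg (by positivity) (mul_nonneg (Nat.cast_nonneg _) (hs 0 (by omega)))
  have hnew := (hy (D + 2) le_rfl).2
  rw [key]
  simp only [mul_sub, sum_sub_distrib, hev2]
  linarith

theorem int_cases {z : ℤ} {r : ℝ} (hz : |(z : ℝ)| ≤ r) (hr : r < 2) :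
    z = -1 ∨ z = 0 ∨ z = 1 := by
  have : |(z : ℝ)| < 2 := hz.trans_lt hr
  have : |z| < 2 := by exact_mod_cast this
  rw [abs_lt] at this; omega

/-- Two adjacent windows: a difference `±1` is followed by its negative. -/
theorem step_next {D : ℕ} (hD : 1 ≤ D) {y : ℕ → ℝ} {w : ℝ} (hw : w + D * (2 ^ D * w - 1) < 1)
    (hy : ∀ i ≤ D + 2, 0 ≤ y i ∧ y i ≤ w) {a b : ℤ} (ha : wsum D y = a)
    (hb : wsum D (fun i => y (i + 1)) = b) (ha' : a ≠ 0) : b = -a := by
  have hw0 : 0 ≤ w := (hy 0 (by omega)).1.trans (hy 0 (by omega)).2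
  have hr : (2 : ℝ) ^ D * w < 2 := by
    have : (1 : ℝ) ≤ D := by exact_mod_cast hD
    nlinarith
  have hA : |(a : ℝ)| ≤ 2 ^ D * w := ha ▸ wsum_abs D fun i hi => hy i (by omega)
  have hB : |(b : ℝ)| ≤ 2 ^ D * w := hb ▸ wsum_abs D fun i hi => hy (i + 1) (by omega)
  have neg : ∀ (z : ℕ → ℝ), wsum D (fun i => w - z i) = - wsum D z := by
    intro z
    have h0 := wsum_const D w
    simp only [wsum, mul_sub, sum_sub_distrib] at h0 ⊢
    rw [h0, zero_sub]
  rcases int_cases hA hr with rfl | rfl | rfl
  · have hy' : ∀ i ≤ D + 2, 0 ≤ w - y i ∧ w - y i ≤ w := fun i hi => by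
      have := hy i hi; constructor <;> linarith
    have h := wsum_next D hy' (by rw [neg, ha]; simp)
    rw [neg, hb] at h
    rcases int_cases hB hr with rfl | rfl | rfl <;> simp at h ⊢ <;> linarith
  · exact absurd rfl ha'
  · have h := wsum_next D hy (by simpa using ha)
    rw [hb] at h
    rcases int_cases hB hr with rfl | rfl | rfl <;> simp at h ⊢ <;> linarith

/-- A sequence in `[0, w]` whose differences of order `D + 1` are integers has these equal to
`c * (-1) ^ j` for one integer `c`. -/
theorem pattern {D L : ℕ} (hD : 1 ≤ D) {x : ℕ → ℝ} {w : ℝ} (hw : w + D * (2 ^ D * w - 1) < 1)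
    (hx : ∀ j < L, 0 ≤ x j ∧ x j ≤ w)
    (hint : ∀ j, j + D + 1 < L → ∃ z : ℤ, (fwdDiff 1)^[D + 1] x j = z) :
    ∃ c : ℤ, ∀ j, j + D + 1 < L → (fwdDiff 1)^[D + 1] x j = (c : ℝ) * (-1) ^ j := by
  rcases Nat.lt_or_ge (D + 1) L with hL | hL
  swap
  · exact ⟨0, fun j hj => by omega⟩
  obtain ⟨c, hc⟩ := hint 0 (by omega)
  refine ⟨c, fun j => ?_⟩
  induction j with
  | zero => intro _; simp [hc]
  | succ j ih =>
    intro hj
    obtain ⟨b, hb⟩ := hint (j + 1) hj
    obtain ⟨a, ha⟩ := hint j (by omega)
    have hac : a = c * (-1) ^ j := by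
      have := ha.symm.trans (ih (by omega)); exact_mod_cast this
    let y : ℕ → ℝ := fun i => x (j + i)
    have hy : ∀ i ≤ D + 2, 0 ≤ y i ∧ y i ≤ w := fun i hi => hx _ (by omega)
    have ea : wsum D y = a := by rw [wsum_eq, iter_shift, ha]
    have eb : wsum D (fun i => y (i + 1)) = b := by
      rw [wsum_eq, ← hb, ← iter_shift (D + 1) (j + 1)]
      simp only [y, add_assoc, add_comm 1]
    have hba : b = -a := by
      by_cases ha0 : a = 0
      · by_contra hb0
        have hb0' : b ≠ 0 := by simpa [ha0] using hb0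
        -- reverse the window
        let z : ℕ → ℝ := fun i => y (D + 2 - i)
        have rev : ∀ u v : ℕ → ℝ, (∀ i ≤ D + 1, v i = u (D + 1 - i)) →
            wsum D v = (-1) ^ (D + 1) * wsum D u := by
          intro u v huv
          rw [wsum, wsum, mul_sum, ← sum_range_reflect]
          refine sum_congr rfl fun i hi => ?_
          simp at hi
          have e : D + 2 - 1 - i = D + 1 - i := by omega
          rw [e, huv _ (by omega), Nat.choose_symm (by omega)]
          have e2 : D + 1 - (D + 1 - i) = i := by omega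
          have e3 : (-1 : ℝ) ^ (D + 1) * (-1) ^ (D + 1 - i) = (-1) ^ i := by
            rw [← pow_add, neg_one_pow_eq_pow_mod_two, neg_one_pow_eq_pow_mod_two (n := i)]
            congr 1; omega
          rw [e2, ← e3]; ring
        have za : wsum D z = (((-1) ^ (D + 1) * b : ℤ) : ℝ) := by
          rw [rev (fun i => y (i + 1)) z, eb]
          · push_cast; rfl
          · intro i hi; simp only [z]; congr 1; omega
        have zb : wsum D (fun i => z (i + 1)) = (((-1) ^ (D + 1) * a : ℤ) : ℝ) := by
          rw [rev y, ea]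
          · push_cast; rfl
          · intro i hi; simp only [z]; congr 1; omega
        have := step_next hD hw (fun i hi => hy (D + 2 - i) (by omega)) za zb (by simp [hb0'])
        simp [ha0, hb0'] at this
      · exact step_next hD hw hy ea eb ha0
    rw [hb, hba, hac, pow_succ]; push_cast; ring

end Vale.Agent.P057
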