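import Mathlib
import Vale.Agent.P057.Pattern

/-!
Points near a sphere in a product of short intervals give sets free of progressions of
order `D`, for P057.
-/

namespace Vale.Agent.P057

open Finset

/-- The twisted sum `f (j + 1) + f j`. -/
def tw (f : ℕ → ℝ) : ℕ → ℝ := fun j => f (j + 1) + f j

theorem fd_apply (f : ℕ → ℝ) (j : ℕ) : fwdDiff 1 f j = f (j + 1) - f j := rfl

theorem iter_zero_fun (n : ℕ) : (fwdDiff 1)^[n] (0 : ℕ → ℝ) = 0 := by
  induction n with
  | zero => rfl
  | succ n ih => rw [Function.iterate_succ_apply', ih]; funext j; simp [fd_apply]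

theorem iter_const (n : ℕ) (a : ℝ) : (fwdDiff 1)^[n + 1] (fun _ : ℕ => a) = 0 := by
  rw [Function.iterate_succ_apply, fwdDiff_const]; exact iter_zero_fun n

theorem iter_tw (n : ℕ) : ∀ f : ℕ → ℝ, (fwdDiff 1)^[n] (tw f) = tw ((fwdDiff 1)^[n] f) := by
  induction n with
  | zero => intro f; rfl
  | succ n ih =>
    intro f
    rw [Function.iterate_succ_apply, Function.iterate_succ_apply, ← ih]
    congr 1
    funext j
    simp [fd_apply, tw]; ring

theorem iter_tw_iter (n m : ℕ) : ∀ f : ℕ → ℝ,
    (fwdDiff 1)^[n] (tw^[m] f) = tw^[m] ((fwdDiff 1)^[n] f) := by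
  induction m with
  | zero => intro f; rfl
  | succ m ih => intro f; rw [Function.iterate_succ_apply, Function.iterate_succ_apply, ih, iter_tw]

theorem tw_iter_add (m : ℕ) : ∀ f g : ℕ → ℝ, tw^[m] (f + g) = tw^[m] f + tw^[m] g := by
  induction m with
  | zero => intro f g; rfl
  | succ m ih =>
    intro f g
    simp only [Function.iterate_succ_apply]
    rw [← ih]; congr 1; funext j; simp [tw]; ring

theorem tw_iter_const (m : ℕ) : ∀ a : ℝ, tw^[m] (fun _ => a) = fun _ => 2 ^ m * a := by
  induction m with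
  | zero => intro a; simp
  | succ m ih =>
    intro a
    rw [Function.iterate_succ_apply, show tw (fun _ => a) = fun _ => 2 * a from by
      funext j; simp [tw]; ring, ih]
    funext j; ring

theorem tw_iter_alt (m : ℕ) : ∀ G : ℕ → ℝ, tw^[m] (fun j => (-1) ^ j * G j) =
    fun j => (-1) ^ (j + m) * (fwdDiff 1)^[m] G j := by
  induction m with
  | zero => intro G; simp
  | succ m ih =>
    intro G
    rw [Function.iterate_succ_apply', ih]
    funext j
    simp only [tw, Function.iterate_succ_apply', fd_apply]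
    rw [show j + 1 + m = j + m + 1 by ring, show j + (m + 1) = j + m + 1 by ring, pow_succ]; ring

theorem tw_iter_bound (m : ℕ) : ∀ (f : ℕ → ℝ) (B : ℝ) (j : ℕ), (∀ i ≤ m, |f (j + i)| ≤ B) →
    |tw^[m] f j| ≤ 2 ^ m * B := by
  induction m with
  | zero => intro f B j h; simpa using h 0 le_rfl
  | succ m ih =>
    intro f B j h
    rw [Function.iterate_succ_apply]
    refine (ih (tw f) (2 * B) j fun i hi => ?_).trans_eq (by ring)
    have a := h i (by omega)
    have b := h (i + 1) (by omega)
    rw [← add_assoc] at b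
    exact (abs_add_le _ _).trans (by linarith)

theorem fd_iter_bound (m : ℕ) : ∀ (f : ℕ → ℝ) (B : ℝ) (j : ℕ), (∀ i ≤ m, |f (j + i)| ≤ B) →
    |(fwdDiff 1)^[m] f j| ≤ 2 ^ m * B := by
  induction m with
  | zero => intro f B j h; simpa using h 0 le_rfl
  | succ m ih =>
    intro f B j h
    rw [Function.iterate_succ_apply]
    refine (ih _ (2 * B) j fun i hi => ?_).trans_eq (by ring)
    have a := h i (by omega)
    have b := h (i + 1) (by omega)
    rw [← add_assoc] at b
    exact (abs_sub _ _).trans (by linarith)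

/-- The Newton series with coefficients `q` and `n` terms. -/
noncomputable def newton (q : ℕ → ℝ) (n : ℕ) : ℕ → ℝ :=
  fun j => ∑ i ∈ range n, q i * (j.choose i : ℝ)

theorem fd_newton (q : ℕ → ℝ) (n : ℕ) :
    fwdDiff 1 (newton q (n + 1)) = newton (fun i => q (i + 1)) n := by
  funext j
  simp only [fd_apply, newton]
  rw [sum_range_succ', sum_range_succ', ← sub_eq_zero]
  simp [Nat.choose_succ_succ', mul_add, sum_add_distrib]

theorem iter_newton_zero (n : ℕ) : ∀ q : ℕ → ℝ, (fwdDiff 1)^[n] (newton q n) = 0 := by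
  induction n with
  | zero => intro q; funext j; simp [newton]
  | succ n ih => intro q; rw [Function.iterate_succ_apply, fd_newton, ih]

theorem iter_newton_top (n : ℕ) : ∀ q : ℕ → ℝ,
    (fwdDiff 1)^[n] (newton q (n + 1)) = fun _ => q n := by
  induction n with
  | zero => intro q; funext j; simp [newton]
  | succ n ih => intro q; rw [Function.iterate_succ_apply, fd_newton, ih]

/-- Leibniz: the top difference of a product of two sequences of degrees `a`, `b`. -/
theorem iter_mul (n : ℕ) : ∀ (a b : ℕ), a + b = n → ∀ (f g : ℕ → ℝ) (α β : ℝ),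
    ((fwdDiff 1)^[a] f = fun _ => α) → ((fwdDiff 1)^[b] g = fun _ => β) →
    (fwdDiff 1)^[n] (fun j => f j * g j) = fun _ => (n.choose a : ℝ) * (α * β) := by
  induction n with
  | zero =>
    intro a b h f g α β hf hg
    obtain ⟨rfl, rfl⟩ : a = 0 ∧ b = 0 := by omega
    simp only [Function.iterate_zero, id_eq] at hf hg
    funext j; simp [hf, hg]
  | succ n ih =>
    intro a b h f g α β hf hg
    rw [Function.iterate_succ_apply]
    have hsplit : fwdDiff 1 (fun j => f j * g j) =
        (fun j => fwdDiff 1 f j * g (j + 1)) + fun j => f j * fwdDiff 1 g j := by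
      funext j; simp [fd_apply]; ring
    rw [hsplit, fwdDiff_iter_add]
    have hg' : (fwdDiff 1)^[b] (fun j => g (j + 1)) = fun _ => β := by
      funext j; rw [fwdDiff_iter_comp_add, hg]
    have first : (fwdDiff 1)^[n] (fun j => fwdDiff 1 f j * g (j + 1)) =
        fun _ => if a = 0 then 0 else (n.choose (a - 1) : ℝ) * (α * β) := by
      rcases a with _ | a
      · simp only [Function.iterate_zero, id_eq] at hf
        have h0 : (fun j => fwdDiff 1 f j * g (j + 1)) = (0 : ℕ → ℝ) := by
          funext j; simp [hf, fd_apply]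
        rw [h0, iter_zero_fun, if_pos rfl]; rfl
      · rw [if_neg (Nat.succ_ne_zero a), Nat.add_sub_cancel]
        exact ih a b (by omega) _ _ α β (by rwa [← Function.iterate_succ_apply]) hg'
    have second : (fwdDiff 1)^[n] (fun j => f j * fwdDiff 1 g j) =
        fun _ => if b = 0 then 0 else (n.choose a : ℝ) * (α * β) := by
      rcases b with _ | b
      · simp only [Function.iterate_zero, id_eq] at hg
        have h0 : (fun j => f j * fwdDiff 1 g j) = (0 : ℕ → ℝ) := by
          funext j; simp [hg, fd_apply]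
        rw [h0, iter_zero_fun, if_pos rfl]; rfl
      · rw [if_neg (Nat.succ_ne_zero b)]
        exact ih a b (by omega) _ _ α β hf (by rwa [← Function.iterate_succ_apply])
    rw [first, second]
    funext j
    simp only [Pi.add_apply]
    rcases a with _ | a
    · have : b ≠ 0 := by omega
      simp [this]
    · rcases b with _ | b
      · obtain rfl : a = n := by omega
        simp
      · simp [Nat.choose_succ_succ']; ring

/-- A sequence with vanishing differences of order `n` below `k` is its Newton series there. -/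
theorem eq_newton {n k : ℕ} (f : ℕ → ℝ)
    (h : ∀ j, j + n < k → (fwdDiff 1)^[n] f j = 0) :
    ∀ j < k, f j = newton (fun i => (fwdDiff 1)^[i] f 0) n j := by
  intro j hj
  have e := shift_eq_sum_fwdDiff_iter 1 f j 0
  rw [zero_add, nsmul_one, Nat.cast_id] at e
  have hz : ∀ i, n ≤ i → i < k → (fwdDiff 1)^[i] f 0 = 0 := by
    intro i hi hik
    rw [← Nat.sub_add_cancel hi, Function.iterate_add_apply]
    have hb := fd_iter_bound (i - n) ((fwdDiff 1)^[n] f) 0 0
      (fun l hl => by rw [h _ (by omega), abs_zero])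
    rw [mul_zero] at hb
    exact abs_nonpos_iff.1 hb
  rw [e, newton]
  rcases Nat.lt_or_ge j n with hjn | hjn
  · rw [← sum_subset (range_mono (by omega : j + 1 ≤ n)) fun i _ hi => by
      simp at hi; simp [Nat.choose_eq_zero_of_lt (by omega : j < i)]]
    exact sum_congr rfl fun i _ => by simp [mul_comm]
  · rw [sum_subset (range_mono (by omega : n ≤ j + 1)) fun i hi hi' => by
      simp at hi hi'; simp [hz i hi' (by omega)]]
    exact sum_congr rfl fun i _ => by simp [mul_comm]

theorem cast_iter (p : ℕ → ℤ) (n : ℕ) : ∀ j : ℕ,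
    (((fwdDiff 1)^[n] p j : ℤ) : ℝ) = (fwdDiff 1)^[n] (fun i => ((p i : ℤ) : ℝ)) j := by
  intro j; simp [fwdDiff_iter_eq_sum_shift]

/-- The main lemma: a set of integers whose residues modulo several primes lie in a short
box near one sphere is free of non-constant progressions of order `D`. -/
theorem free_shell {D k d M : ℕ} (hD : 2 ≤ D) (hk : 3 * D + 2 ≤ k) (pr : Fin d → ℕ)
    (hpr : ∀ t, (pr t).Prime) (hinj : Function.Injective pr) (hodd : ∀ t, 2 < pr t)
    (hM : ∀ t, pr t ≤ M) (N : ℕ) (hP : 2 ^ D * N < ∏ t, pr t) (w R δ : ℝ)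
    (hw : w + D * (2 ^ D * w - 1) < 1) (hδ : δ * ((2 : ℝ) ^ (2 * D + 1) * M) ^ 2 < 1)
    (s : ℤ) (A : Finset ℤ) (hAN : ∀ a ∈ A, 0 ≤ a ∧ a < N)
    (hx : ∀ a ∈ A, (∀ t, Int.fract (((a + s : ℤ) : ℝ) / pr t) ≤ w) ∧
      R ≤ ∑ t, Int.fract (((a + s : ℤ) : ℝ) / pr t) ^ 2 ∧
      ∑ t, Int.fract (((a + s : ℤ) : ℝ) / pr t) ^ 2 ≤ R + δ) :
    ∀ p : ℕ → ℤ, (∀ j < k, p j ∈ A) →
      (∀ j, j + (D + 1) < k → (fwdDiff 1)^[D + 1] p j = 0) → ∀ j < k, p j = p 0 := by
  intro p hp hdp
  let x : Fin d → ℕ → ℝ := fun t j => Int.fract (((p j + s : ℤ) : ℝ) / pr t)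
  have hδ0 : 0 ≤ δ := by
    have := hx _ (hp 0 (by omega)); linarith [this.2.1, this.2.2]
  let fl : Fin d → ℕ → ℤ := fun t j => ⌊((p j + s : ℤ) : ℝ) / pr t⌋
  have xrel : ∀ t n j, (fwdDiff 1)^[n] (x t) j =
      (fwdDiff 1)^[n] (fun i => ((p i + s : ℤ) : ℝ) / pr t) j
        - (((fwdDiff 1)^[n] (fl t) j : ℤ) : ℝ) := by
    intro t n j
    rw [cast_iter, fwdDiff_iter_eq_sum_shift, fwdDiff_iter_eq_sum_shift, fwdDiff_iter_eq_sum_shift,
      ← sum_sub_distrib]
    refine sum_congr rfl fun i _ => ?_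
    simp only [zsmul_eq_mul]
    rw [← mul_sub]; rfl
  have prel : ∀ t n j, (fwdDiff 1)^[n + 1] (fun i => ((p i + s : ℤ) : ℝ) / pr t) j =
      (((fwdDiff 1)^[n + 1] p j : ℤ) : ℝ) / pr t := by
    intro t n j
    have e : (fun i => ((p i + s : ℤ) : ℝ) / pr t) =
        ((pr t : ℝ))⁻¹ • ((fun i => ((p i : ℤ) : ℝ)) + fun _ => (s : ℝ)) := by
      funext i; simp [div_eq_inv_mul]
    rw [e, fwdDiff_iter_const_smul, fwdDiff_iter_add, iter_const, cast_iter]
    simp [div_eq_inv_mul]
  have hint : ∀ t j, j + D + 1 < k → ∃ z : ℤ, (fwdDiff 1)^[D + 1] (x t) j = z := by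
    intro t j hj
    refine ⟨-(fwdDiff 1)^[D + 1] (fl t) j, ?_⟩
    rw [xrel, prel, hdp j (by omega)]; simp
  choose c hc using fun t => pattern (L := k) (by omega : 1 ≤ D) hw
    (fun j hj => ⟨Int.fract_nonneg _, (hx _ (hp j hj)).1 t⟩) (hint t)
  let c' : Fin d → ℝ := fun t => (c t : ℝ) * ((-2 : ℝ) ^ (D + 1))⁻¹
  let y : Fin d → ℕ → ℝ := fun t j => x t j - c' t * (-1) ^ j
  have hy : ∀ t n j, (fwdDiff 1)^[n] (y t) j =
      (fwdDiff 1)^[n] (x t) j - c' t * ((-2) ^ n * (-1) ^ j) := by
    intro t n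
    induction n with
    | zero => intro j; simp [y]
    | succ n ih =>
      intro j
      simp only [Function.iterate_succ_apply', fd_apply, ih]
      rw [pow_succ, pow_succ]; ring
  have hytop : ∀ t j, j + (D + 1) < k → (fwdDiff 1)^[D + 1] (y t) j = 0 := by
    intro t j hj
    rw [hy, hc t j (by omega)]
    simp only [c']
    field_simp
    ring
  let q : Fin d → ℕ → ℝ := fun t i => (fwdDiff 1)^[i] (y t) 0
  let a : ℕ → ℤ := fun i => (fwdDiff 1)^[i] p 0
  have hQ : ∀ t j, j < k → x t j = newton (q t) (D + 1) j + c' t * (-1) ^ j := by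
    intro t j hj
    have := eq_newton (y t) (hytop t) j hj
    simp only [y] at this ⊢
    linarith
  -- downward induction
  have main : ∀ m, m ≤ D → ∀ i, D - m < i → i ≤ D → a i = 0 ∧ ∀ t, q t i = 0 := by
    intro m
    induction m with
    | zero => intro _ i h1 h2; omega
    | succ m ih =>
      intro hm i h1 h2
      rcases Nat.lt_or_ge (D - m) i with h | h
      · exact ih (by omega) i h h2
      obtain ⟨i', rfl⟩ : ∃ i', i = i' + 1 := ⟨i - 1, by omega⟩
      set i := i' + 1 with hi'
      have hup : ∀ l, i < l → l ≤ D → ∀ t, q t l = 0 := fun l hl hl' =>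
        (ih (by omega) l (by omega) hl').2
      let Q : Fin d → ℕ → ℝ := fun t => newton (q t) (i + 1)
      have hQi : ∀ t j, j < k → x t j = Q t j + c' t * (-1) ^ j := by
        intro t j hj
        rw [hQ t j hj, add_left_inj]
        refine (sum_subset (range_mono (by omega)) fun l hl hl' => ?_).symm
        simp at hl hl'
        simp [hup l (by omega) (by omega) t]
      let F : ℕ → ℝ := (∑ t, fun j => Q t j * Q t j) + fun _ => (∑ t, c' t ^ 2) - R
      let G : ℕ → ℝ := ∑ t, (2 * c' t) • Q t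
      let e : ℕ → ℝ := F + fun j => (-1) ^ j * G j
      have hG : (fwdDiff 1)^[D + 1] G = 0 := by
        simp only [G]
        rw [fwdDiff_iter_finsetSum]
        refine sum_eq_zero fun t _ => ?_
        rw [fwdDiff_iter_const_smul, show D + 1 = (D - i) + (i + 1) by omega,
          Function.iterate_add_apply, iter_newton_zero, iter_zero_fun, smul_zero]
      have hF : (fwdDiff 1)^[2 * i] F = fun _ => ((2 * i).choose i : ℝ) * ∑ t, q t i ^ 2 := by
        simp only [F]
        rw [fwdDiff_iter_add, fwdDiff_iter_finsetSum,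
          show 2 * i = (2 * i' + 1) + 1 by omega, iter_const, add_zero]
        funext j
        rw [Finset.sum_apply, mul_sum]
        refine sum_congr rfl fun t _ => ?_
        rw [show 2 * i' + 1 + 1 = i + i by omega, iter_mul (i + i) i i rfl _ _ _ _
          (iter_newton_top i (q t)) (iter_newton_top i (q t)), sq]
      have he : (fwdDiff 1)^[2 * i] (tw^[D + 1] e) 0
          = 2 ^ (D + 1) * (((2 * i).choose i : ℝ) * ∑ t, q t i ^ 2) := by
        simp only [e]
        rw [tw_iter_add, tw_iter_alt, hG]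
        have hz : (fun j : ℕ => (-1 : ℝ) ^ (j + (D + 1)) * (0 : ℕ → ℝ) j) = 0 := by funext j; simp
        rw [hz, add_zero, iter_tw_iter, hF, tw_iter_const]
      have hesmall : ∀ j < k, |e j| ≤ δ := by
        intro j hj
        have hjx := hx _ (hp j hj)
        have : e j = (∑ t, x t j ^ 2) - R := by
          simp only [e, F, G, Pi.add_apply, Finset.sum_apply, Pi.smul_apply, smul_eq_mul, mul_sum]
          rw [← add_sub_assoc, sub_add_eq_add_sub, ← sum_add_distrib, ← sum_add_distrib]
          congr 1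
          refine sum_congr rfl fun t _ => ?_
          rw [hQi t j hj]
          have : ((-1 : ℝ) ^ j) ^ 2 = 1 := by rw [← pow_mul, mul_comm, pow_mul, neg_one_sq, one_pow]
          linear_combination (-(c' t) ^ 2) * this
        have h1 : ∑ t, x t j ^ 2 = ∑ t, Int.fract (((p j + s : ℤ) : ℝ) / pr t) ^ 2 := rfl
        rw [abs_le, this, h1]; constructor <;> linarith [hjx.2.1, hjx.2.2]
      have hq : ∀ t, q t i ^ 2 ≤ 4 ^ i * δ := by
        intro t
        have h1 : |(fwdDiff 1)^[2 * i] (tw^[D + 1] e) 0| ≤ 2 ^ (2 * i) * (2 ^ (D + 1) * δ) := by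
          refine fd_iter_bound _ _ _ _ fun l hl => ?_
          exact tw_iter_bound _ _ _ _ fun l' hl' => hesmall _ (by omega)
        rw [he, abs_of_nonneg (by positivity), pow_mul] at h1
        have h2 : q t i ^ 2 ≤ ∑ t, q t i ^ 2 :=
          single_le_sum (f := fun t => q t i ^ 2) (fun _ _ => sq_nonneg _) (mem_univ t)
        have h3 : (1 : ℝ) ≤ ((2 * i).choose i : ℝ) := by
          exact_mod_cast Nat.choose_pos (by omega)
        have h4 : ∑ t, q t i ^ 2 ≤ ((2 * i).choose i : ℝ) * ∑ t, q t i ^ 2 :=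
          le_mul_of_one_le_left (sum_nonneg fun _ _ => sq_nonneg _) h3
        norm_num at h1
        nlinarith [pow_pos (two_pos (α := ℝ)) (D + 1)]
      have hqa : ∀ t, q t i = 0 ∧ (pr t : ℤ) ∣ a i := by
        intro t
        let z : ℤ := 2 ^ (D + 1) * a i
          - pr t * (2 ^ (D + 1) * (fwdDiff 1)^[i] (fl t) 0 + (-1) ^ (D + 1) * c t * (-2) ^ i)
        have hp0 : (pr t : ℝ) ≠ 0 := by exact_mod_cast (hpr t).ne_zero
        have hz : (z : ℝ) = pr t * (2 ^ (D + 1) * q t i) := by
          simp only [q]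
          rw [hy, xrel, hi', prel, ← hi']
          have hsign : ((-2 : ℝ) ^ (D + 1))⁻¹ * 2 ^ (D + 1) = (-1) ^ (D + 1) := by
            rw [← inv_pow, ← mul_pow]; norm_num
          simp only [z, a, c']
          push_cast
          field_simp
          rw [← hsign]
          field_simp
          ring
        have hsmall : |(z : ℝ)| < 1 := by
          rw [← sq_lt_one_iff_abs_lt_one, hz, sq]
          have h4 : (4 : ℝ) ^ i ≤ 4 ^ D := pow_le_pow_right₀ (by norm_num) (by omega)
          have hqt := (hq t).trans (mul_le_mul_of_nonneg_right h4 hδ0)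
          have hpm : (pr t : ℝ) ^ 2 ≤ (M : ℝ) ^ 2 :=
            pow_le_pow_left₀ (Nat.cast_nonneg _) (by exact_mod_cast hM t) 2
          calc pr t * (2 ^ (D + 1) * q t i) * (pr t * (2 ^ (D + 1) * q t i))
              = (pr t : ℝ) ^ 2 * (2 ^ (D + 1)) ^ 2 * q t i ^ 2 := by ring
            _ ≤ (M : ℝ) ^ 2 * (2 ^ (D + 1)) ^ 2 * (4 ^ D * δ) := by gcongr
            _ = δ * ((2 : ℝ) ^ (2 * D + 1) * M) ^ 2 := by
                have h2D : (4 : ℝ) ^ D = ((2 : ℝ) ^ D) ^ 2 := by
                  rw [← pow_mul, mul_comm D 2, pow_mul]; norm_num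
                rw [h2D]; ring
            _ < 1 := hδ
        have hz0 : z = 0 := Int.abs_lt_one_iff.1 (by exact_mod_cast hsmall)
        refine ⟨?_, ?_⟩
        · rw [hz0] at hz
          simpa [hp0] using hz.symm
        · have hd : (pr t : ℤ) ∣ 2 ^ (D + 1) * a i := ⟨_, sub_eq_zero.1 hz0⟩
          rcases (Nat.prime_iff_prime_int.1 (hpr t)).dvd_mul.1 hd with h2 | h2
          · have h3 := Int.le_of_dvd two_pos ((Nat.prime_iff_prime_int.1 (hpr t)).dvd_of_dvd_pow h2)
            have := hodd t
            omega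
          · exact h2
      refine ⟨?_, fun t => (hqa t).1⟩
      have hdvd : ((∏ t, pr t : ℕ) : ℤ) ∣ a i := by
        rw [Nat.cast_prod]
        refine Fintype.prod_dvd_of_coprime (fun t u htu => ?_) fun t => (hqa t).2
        exact ((Nat.coprime_primes (hpr t) (hpr u)).2 (hinj.ne htu)).isCoprime
      have hsmall : |a i| ≤ 2 ^ D * (N : ℤ) := by
        have hb : |((a i : ℤ) : ℝ)| ≤ 2 ^ i * N := by
          simp only [a]; rw [cast_iter]
          refine fd_iter_bound _ _ _ _ fun l hl => ?_
          obtain ⟨u, v⟩ := hAN _ (hp (0 + l) (by omega))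
          rw [abs_of_nonneg (by exact_mod_cast u)]
          exact_mod_cast v.le
        have h2 : (2 : ℝ) ^ i * N ≤ 2 ^ D * N :=
          mul_le_mul_of_nonneg_right (pow_le_pow_right₀ one_le_two (by omega)) (Nat.cast_nonneg _)
        exact_mod_cast hb.trans h2
      exact Int.eq_zero_of_abs_lt_dvd hdvd (hsmall.trans_lt (by exact_mod_cast hP))
  intro j hj
  have e := eq_newton (fun i => ((p i : ℤ) : ℝ)) (n := D + 1) (k := k)
    (fun l hl => by rw [← cast_iter, hdp l hl, Int.cast_zero]) j hj
  rw [newton, sum_range_succ'] at e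
  have hz : ∀ i ∈ range D, (fwdDiff 1)^[i + 1] (fun i => ((p i : ℤ) : ℝ)) 0 * (j.choose (i + 1) : ℝ)
      = 0 := by
    intro i hi
    simp at hi
    have := (main D le_rfl (i + 1) (by omega) (by omega)).1
    simp only [a] at this
    rw [← cast_iter, this]; simp
  rw [sum_eq_zero hz] at e
  simpa using e

end Vale.Agent.P057
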