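import Mathlib

/-!
P057, top construction, counting part (helper9).
Primes in a dyadic range, CRT count of a box in residues, pigeonhole shell, translate averaging,
and the asymptotic optimisation.  The deterministic part (the shell set is free) enters as a
hypothesis on an abstract predicate.
-/

namespace Vale.Agent.P057.TopCount

open Finset Real

/-- For large `m` there are at least `√m` primes in `(m, 4m]`. -/
lemma primes_avail (m : ℕ) (hm : 10 ^ 7 ≤ m) :
    Real.sqrt m ≤ #((Finset.Ioc m (4 * m)).filter Nat.Prime) := by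
  set S := (Finset.Ioc m (4 * m)).filter Nat.Prime with hS
  set M : ℝ := (m : ℝ) with hMdef
  have hM : (10 : ℝ) ^ 7 ≤ M := by
    rw [hMdef]; exact_mod_cast hm
  have hM1 : (1 : ℝ) ≤ M := le_trans (by norm_num) hM
  have h4 := Chebyshev.theta_ge (4 * m)
  have h1 := Chebyshev.theta_le_log4_mul_x (x := M) (by linarith)
  have hth : ∀ n : ℕ, Chebyshev.theta n = ∑ p ∈ (Finset.Ioc 0 n).filter Nat.Prime, Real.log p := by
    intro n
    simp [Chebyshev.theta, Nat.floor_natCast]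
  have hsplit : (Finset.Ioc 0 (4 * m)).filter Nat.Prime
      = (Finset.Ioc 0 m).filter Nat.Prime ∪ S := by
    rw [hS, ← Finset.filter_union, Finset.Ioc_union_Ioc_eq_Ioc (Nat.zero_le _) (by omega)]
  have hdisj : Disjoint ((Finset.Ioc 0 m).filter Nat.Prime) S := by
    rw [hS, Finset.disjoint_left]
    intro a ha hb
    simp only [Finset.mem_filter, Finset.mem_Ioc] at ha hb
    omega
  have hsum : ∑ p ∈ S, Real.log p ≤ (#S : ℝ) * Real.log (4 * M) := by
    have := Finset.sum_le_card_nsmul S (fun p : ℕ => Real.log p) (Real.log (4 * M)) (by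
      intro p hp
      rw [hS] at hp
      simp only [Finset.mem_filter, Finset.mem_Ioc] at hp
      have hp4 : (p : ℝ) ≤ 4 * M := by
        rw [hMdef]; exact_mod_cast hp.1.2
      exact Real.log_le_log (by exact_mod_cast hp.2.pos) hp4)
    simpa [nsmul_eq_mul] using this
  have e4 : Chebyshev.theta ((4 * m : ℕ) : ℝ) = Chebyshev.theta M + ∑ p ∈ S, Real.log p := by
    rw [hMdef, hth, hth, hsplit, Finset.sum_union hdisj]
  rw [e4] at h4
  push_cast at h4
  rw [← hMdef] at h4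
  have l4 : Real.log 4 = 2 * Real.log 2 := by
    rw [show (4 : ℝ) = 2 ^ 2 by norm_num, Real.log_pow]; push_cast; ring
  have hr : M ^ ((1 : ℝ) / 4) * M ^ ((1 : ℝ) / 4) = Real.sqrt M := by
    rw [Real.sqrt_eq_rpow, ← Real.rpow_add (by linarith)]; norm_num
  have hlog : Real.log (4 * M + 1) ≤ 4 * (5 * M) ^ ((1 : ℝ) / 4) := by
    have := Real.log_le_rpow_div (x := 5 * M) (by positivity) (ε := 1 / 4) (by norm_num)
    have h' : Real.log (4 * M + 1) ≤ Real.log (5 * M) :=
      Real.log_le_log (by positivity) (by linarith)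
    linarith
  have h5 : (5 : ℝ) ^ ((1 : ℝ) / 4) ≤ 2 := by
    calc (5 : ℝ) ^ ((1 : ℝ) / 4) ≤ (16 : ℝ) ^ ((1 : ℝ) / 4) :=
          Real.rpow_le_rpow (by norm_num) (by norm_num) (by norm_num)
      _ = 2 := by
          rw [show (16 : ℝ) = 2 ^ (4 : ℕ) by norm_num, ← Real.rpow_natCast_mul (by norm_num)]
          norm_num
  set r : ℝ := M ^ ((1 : ℝ) / 4) with hrdef
  have hlog' : Real.log (4 * M + 1) ≤ 8 * r := by
    refine le_trans hlog ?_
    rw [Real.mul_rpow (by norm_num) (by linarith)]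
    have : 0 ≤ r := by positivity
    nlinarith
  have hl4 : Real.log (4 * M) ≤ 8 * r :=
    le_trans (Real.log_le_log (by positivity) (by linarith)) hlog'
  have hs4 : Real.sqrt (4 * M) = 2 * Real.sqrt M := by
    rw [Real.sqrt_mul (by norm_num)]; norm_num
  rw [hs4] at h4
  rw [l4] at h1
  have hl0 : 0 ≤ Real.log (4 * M) := Real.log_nonneg (by linarith)
  have hr0 : (50 : ℝ) ≤ r := by
    rw [hrdef]
    calc (50 : ℝ) = ((50 : ℝ) ^ (4 : ℕ)) ^ ((1 : ℝ) / 4) := by
          rw [← Real.rpow_natCast_mul (by norm_num)]; norm_num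
      _ ≤ M ^ ((1 : ℝ) / 4) :=
          Real.rpow_le_rpow (by norm_num) (le_trans (by norm_num) hM) (by norm_num)
  have hMr : M = r * r * (r * r) := by
    rw [hr, Real.mul_self_sqrt (by linarith)]
  rw [← hr]
  have hl2 := Real.log_two_gt_d9
  by_contra hcon
  push Not at hcon
  nlinarith [hsum, h4, h1, hr, mul_le_mul_of_nonneg_right hcon.le hl0, mul_le_mul hl4 le_rfl
    (mul_self_nonneg r) (by positivity), mul_nonneg (sub_nonneg.2 hr0) (mul_self_nonneg r)]

/-- The scaled residue of `z` modulo `q`. -/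
noncomputable def frac (q : ℕ) (z : ℤ) : ℝ := ((z % (q : ℤ) : ℤ) : ℝ) / q

/-- CRT count: at least `w^d P` residues have all scaled residues below `w`. -/
lemma box_count {d : ℕ} (p : Fin d → ℕ) (hp : ∀ t, 0 < p t)
    (hco : Pairwise fun i j => Nat.Coprime (p i) (p j)) (w : ℝ) (hw0 : 0 ≤ w) (hw1 : w ≤ 1) :
    w ^ d * (∏ t, p t : ℕ) ≤
      #((Finset.range (∏ t, p t)).filter fun v : ℕ => ∀ t, frac (p t) (v : ℤ) < w) := by
  classical
  set P := ∏ t, p t with hP
  set T := Fintype.piFinset fun t => Finset.range ⌈w * p t⌉₊ with hT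
  have hsol : ∀ a : Fin d → ℕ, ∃ v, v < P ∧ ∀ t, v % p t = a t % p t := by
    intro a
    have hl : (Finset.univ : Finset (Fin d)).toList.Nodup := Finset.nodup_toList _
    let k := Nat.chineseRemainderOfFinset a p Finset.univ (fun t _ => (hp t).ne')
      (fun i _ j _ hij => hco hij)
    refine ⟨k, Nat.chineseRemainderOfFinset_lt_prod a p (fun t _ => (hp t).ne') _, fun t => ?_⟩
    exact k.2 t (Finset.mem_univ t)
  choose g hg using hsol
  have hb : ∀ a ∈ T, ∀ t, a t < p t ∧ ((a t : ℝ) < w * p t) := by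
    intro a ha t
    rw [hT, Fintype.mem_piFinset] at ha
    have := Finset.mem_range.1 (ha t)
    refine ⟨lt_of_lt_of_le this (Nat.ceil_le.2 ?_), Nat.lt_ceil.1 this⟩
    exact mul_le_of_le_one_left (Nat.cast_nonneg _) hw1
  have hcard : #T ≤ #((Finset.range P).filter fun v : ℕ => ∀ t, frac (p t) (v : ℤ) < w) := by
    refine Finset.card_le_card_of_injOn g ?_ ?_
    · intro a ha
      simp only [Finset.coe_filter, Set.mem_ofPred_eq, Finset.mem_range]
      refine ⟨(hg a).1, fun t => ?_⟩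
      rw [frac, div_lt_iff₀ (by exact_mod_cast hp t), ← Int.natCast_mod, (hg a).2 t,
        Nat.mod_eq_of_lt (hb a ha t).1]
      exact_mod_cast (hb a ha t).2
    · intro a ha b hb' e
      funext t
      rw [← Nat.mod_eq_of_lt (hb a ha t).1, ← Nat.mod_eq_of_lt (hb b hb' t).1,
        ← (hg a).2 t, ← (hg b).2 t, e]
  refine le_trans ?_ (Nat.cast_le.2 hcard)
  rw [hT, Fintype.card_piFinset]
  push_cast
  calc w ^ d * (P : ℝ) = ∏ t, (w * (p t : ℝ)) := by
        rw [Finset.prod_mul_distrib, hP]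
        push_cast
        simp
    _ ≤ _ := Finset.prod_le_prod (fun t _ => by positivity)
        (fun t _ => by simpa using Nat.le_ceil (w * (p t : ℝ)))

/-- Pigeonhole for a shell. -/
lemma shell {ι : Type*} (S : Finset ι) (f : ι → ℝ) (b δ : ℝ) (hb : 0 ≤ b) (hδ : 0 < δ)
    (hf : ∀ v ∈ S, 0 ≤ f v ∧ f v < b) :
    ∃ R : ℝ, (#S : ℝ) ≤ (b / δ + 2) * #(S.filter fun v => R ≤ f v ∧ f v < R + δ) := by
  classical
  set K := ⌊b / δ⌋₊ + 1 with hK
  have hmap : ∀ v ∈ S, ⌊f v / δ⌋₊ ∈ Finset.range K := by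
    intro v hv
    rw [Finset.mem_range, hK, Nat.lt_succ_iff]
    exact Nat.floor_le_floor (div_le_div_of_nonneg_right (hf v hv).2.le hδ.le)
  obtain ⟨j, hj, hmax⟩ := Finset.exists_max_image (Finset.range K)
    (fun j => #(S.filter fun v => ⌊f v / δ⌋₊ = j)) ⟨0, by simp [hK]⟩
  refine ⟨j * δ, ?_⟩
  have h1 : #S ≤ K * #(S.filter fun v => ⌊f v / δ⌋₊ = j) := by
    rw [Finset.card_eq_sum_card_fiberwise hmap]
    calc _ ≤ ∑ _x ∈ Finset.range K, #(S.filter fun v => ⌊f v / δ⌋₊ = j) := Finset.sum_le_sum hmax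
      _ = _ := by simp
  have h2 : #(S.filter fun v => ⌊f v / δ⌋₊ = j)
      ≤ #(S.filter fun v => j * δ ≤ f v ∧ f v < j * δ + δ) := by
    refine Finset.card_le_card fun v hv => ?_
    simp only [Finset.mem_filter] at hv ⊢
    have h0 : 0 ≤ f v / δ := div_nonneg (hf v hv.1).1 hδ.le
    have a := Nat.floor_le h0
    have c := Nat.lt_floor_add_one (f v / δ)
    rw [hv.2] at a c
    rw [le_div_iff₀ hδ] at a
    rw [div_lt_iff₀ hδ] at c
    exact ⟨hv.1, a, by linarith⟩
  calc (#S : ℝ) ≤ (K : ℝ) * #(S.filter fun v => j * δ ≤ f v ∧ f v < j * δ + δ) := by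
        exact_mod_cast le_trans h1 (Nat.mul_le_mul_left K h2)
    _ ≤ _ := by
        refine mul_le_mul_of_nonneg_right ?_ (Nat.cast_nonneg _)
        rw [hK]; push_cast
        linarith [Nat.floor_le (div_nonneg hb hδ.le)]

/-- Translate averaging inside residues modulo `P`. -/
lemma translate (P N : ℕ) (hP : 0 < P) (S : Finset ℕ) (hS : S ⊆ Finset.range P) :
    ∃ u : ℕ, N * #S ≤ P * #((Finset.range N).filter fun v => (v + u) % P ∈ S) := by
  classical
  obtain ⟨u, hu, hmax⟩ := Finset.exists_max_image (Finset.range P)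
    (fun u => #((Finset.range N).filter fun v => (v + u) % P ∈ S)) ⟨0, by simpa using hP⟩
  refine ⟨u, ?_⟩
  have key : ∀ v ∈ Finset.range N,
      #((Finset.range P).filter fun u => (v + u) % P ∈ S) = #S := by
    intro v _
    refine Finset.card_bij (fun u _ => (v + u) % P) (fun a ha => (Finset.mem_filter.1 ha).2) ?_ ?_
    · intro a ha b hb e
      have ha' := Finset.mem_range.1 (Finset.mem_filter.1 ha).1
      have hb' := Finset.mem_range.1 (Finset.mem_filter.1 hb).1
      have := Nat.ModEq.add_left_cancel' v (show v + a ≡ v + b [MOD P] from e)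
      exact this.eq_of_lt_of_lt ha' hb'
    · intro s hs
      have hs' := Finset.mem_range.1 (hS hs)
      refine ⟨(s + (P - v % P)) % P, ?_, ?_⟩
      · have hval : (v + (s + (P - v % P)) % P) % P = s := by
          rw [Nat.add_mod_mod, ← Nat.mod_add_mod, show v % P + (s + (P - v % P)) = s + P by
            have := Nat.mod_lt v hP; omega, Nat.add_mod_right, Nat.mod_eq_of_lt hs']
        simp only [Finset.mem_filter, Finset.mem_range, hval]
        exact ⟨Nat.mod_lt _ hP, hs⟩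
      · rw [Nat.add_mod_mod, ← Nat.mod_add_mod, show v % P + (s + (P - v % P)) = s + P by
          have := Nat.mod_lt v hP; omega, Nat.add_mod_right, Nat.mod_eq_of_lt hs']
  calc N * #S = ∑ v ∈ Finset.range N, #((Finset.range P).filter fun u => (v + u) % P ∈ S) := by
        rw [Finset.sum_congr rfl key]; simp
    _ = ∑ u ∈ Finset.range P, #((Finset.range N).filter fun v => (v + u) % P ∈ S) := by
        simp only [Finset.card_filter]; exact Finset.sum_comm
    _ ≤ ∑ _u ∈ Finset.range P, #((Finset.range N).filter fun v => (v + u) % P ∈ S) :=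
        Finset.sum_le_sum hmax
    _ = _ := by simp

/-- What the deterministic part has to provide: shell sets are free. -/
def ShellHyp (D : ℕ) (w κ : ℝ) (Fr : Finset ℤ → Prop) : Prop :=
  ∀ (d : ℕ) (p : Fin d → ℕ) (B N u : ℕ) (R : ℝ),
    (∀ t, (p t).Prime) → (∀ t, 2 < p t) → Function.Injective p → (∀ t, p t ≤ B) →
    2 ^ D * N < ∏ t, p t →
    ∀ A : Finset ℤ, A ⊆ Finset.Ico 0 (N : ℤ) →
      (∀ v ∈ A, ∀ t, frac (p t) (v + u) < w) →
      (∀ v ∈ A, R ≤ ∑ t, frac (p t) (v + u) ^ 2 ∧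
        ∑ t, frac (p t) (v + u) ^ 2 < R + κ / (B : ℝ) ^ 2) →
      Fr A

lemma frac_nonneg (q : ℕ) (hq : 0 < q) (z : ℤ) : 0 ≤ frac q z := by
  unfold frac
  have := Int.emod_nonneg z (show (q : ℤ) ≠ 0 by omega)
  have : (0 : ℝ) ≤ ((z % (q : ℤ) : ℤ) : ℝ) := by exact_mod_cast this
  positivity

lemma frac_mod (q P : ℕ) (h : q ∣ P) (n : ℕ) : frac q ((n % P : ℕ) : ℤ) = frac q (n : ℤ) := by
  unfold frac
  rw [← Int.natCast_mod, ← Int.natCast_mod, Nat.mod_mod_of_dvd n h]

/-- One construction, for given primes. -/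
lemma construct {D : ℕ} {w κ : ℝ} {Fr : Finset ℤ → Prop} (hF : ShellHyp D w κ Fr)
    (hw0 : 0 < w) (hw1 : w < 1) (hκ : 0 < κ) {d m N : ℕ} (hd : 0 < d) (hm : 2 ≤ m)
    (p : Fin d → ℕ) (hp : ∀ t, (p t).Prime) (hinj : Function.Injective p)
    (hlo : ∀ t, m < p t) (hhi : ∀ t, p t ≤ 4 * m) (hN : 2 ^ D * N < ∏ t, p t) :
    ∃ A : Finset ℤ, A ⊆ Finset.Ico 0 (N : ℤ) ∧ Fr A ∧
      (N : ℝ) * w ^ d ≤ ((d : ℝ) * (4 * m : ℝ) ^ 2 / κ + 2) * #A := by
  classical
  set P := ∏ t, p t with hP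
  have hPpos : 0 < P := Finset.prod_pos fun t _ => (hp t).pos
  have hco : Pairwise fun i j => Nat.Coprime (p i) (p j) := fun i j hij =>
    (Nat.coprime_primes (hp i) (hp j)).2 fun e => hij (hinj e)
  set S := (Finset.range P).filter fun v : ℕ => ∀ t, frac (p t) (v : ℤ) < w with hSdef
  have hbox : w ^ d * (P : ℝ) ≤ #S := box_count p (fun t => (hp t).pos) hco w hw0.le hw1.le
  set δ : ℝ := κ / ((4 * m : ℕ) : ℝ) ^ 2 with hδ
  have hδpos : 0 < δ := by
    rw [hδ]; push_cast; positivity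
  obtain ⟨R, hR⟩ := shell S (fun v : ℕ => ∑ t, frac (p t) (v : ℤ) ^ 2) d δ (Nat.cast_nonneg _)
    hδpos (by
      intro v hv
      refine ⟨Finset.sum_nonneg fun t _ => sq_nonneg _, ?_⟩
      have hne : (Finset.univ : Finset (Fin d)).Nonempty := ⟨⟨0, hd⟩, Finset.mem_univ _⟩
      calc ∑ t, frac (p t) (v : ℤ) ^ 2 < ∑ _t : Fin d, (1 : ℝ) := by
            refine Finset.sum_lt_sum_of_nonempty hne fun t _ => ?_
            have a := frac_nonneg (p t) (hp t).pos (v : ℤ)
            have b := (Finset.mem_filter.1 hv).2 t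
            nlinarith
        _ = d := by simp)
  set S' := S.filter fun v : ℕ =>
    R ≤ ∑ t, frac (p t) (v : ℤ) ^ 2 ∧ ∑ t, frac (p t) (v : ℤ) ^ 2 < R + δ with hS'
  obtain ⟨u, hu⟩ := translate P N hPpos S'
    ((Finset.filter_subset _ _).trans (Finset.filter_subset _ _))
  set A0 := (Finset.range N).filter fun v => (v + u) % P ∈ S' with hA0
  have hfr : ∀ v : ℕ, ∀ t, frac (p t) (((v + u) % P : ℕ) : ℤ) = frac (p t) ((v : ℤ) + u) := by
    intro v t
    rw [frac_mod (p t) P (Finset.dvd_prod_of_mem p (Finset.mem_univ t))]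
    push_cast
    rfl
  refine ⟨A0.map Nat.castEmbedding, ?_, hF d p (4 * m) N u R hp
    (fun t => lt_of_le_of_lt hm (hlo t)) hinj hhi hN _ ?_ ?_ ?_, ?_⟩
  · intro z hz
    obtain ⟨v, hv, rfl⟩ := Finset.mem_map.1 hz
    have := Finset.mem_range.1 (Finset.mem_filter.1 hv).1
    simp only [Nat.castEmbedding_apply, Finset.mem_Ico]
    exact ⟨Int.natCast_nonneg v, by exact_mod_cast this⟩
  · intro z hz
    obtain ⟨v, hv, rfl⟩ := Finset.mem_map.1 hz
    have := Finset.mem_range.1 (Finset.mem_filter.1 hv).1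
    simp only [Nat.castEmbedding_apply, Finset.mem_Ico]
    exact ⟨Int.natCast_nonneg v, by exact_mod_cast this⟩
  · intro z hz t
    obtain ⟨v, hv, rfl⟩ := Finset.mem_map.1 hz
    have h := (Finset.mem_filter.1 (Finset.mem_filter.1 (Finset.mem_filter.1 hv).2).1).2 t
    rw [hfr v t] at h
    simpa using h
  · intro z hz
    obtain ⟨v, hv, rfl⟩ := Finset.mem_map.1 hz
    have h := (Finset.mem_filter.1 (Finset.mem_filter.1 hv).2).2
    simp only [hfr] at h
    simpa [hδ] using h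
  · rw [Finset.card_map]
    have hu' : (N : ℝ) * #S' ≤ (P : ℝ) * #A0 := by exact_mod_cast hu
    have hPR : (0 : ℝ) < P := by exact_mod_cast hPpos
    have hK : (d : ℝ) / δ = (d : ℝ) * (4 * m : ℝ) ^ 2 / κ := by
      rw [hδ]; push_cast; field_simp
    rw [hK] at hR
    set K := (d : ℝ) * (4 * m : ℝ) ^ 2 / κ + 2 with hKd
    have hK0 : 0 ≤ K := by positivity
    refine le_of_mul_le_mul_left ?_ hPR
    calc (P : ℝ) * ((N : ℝ) * w ^ d) = (N : ℝ) * (w ^ d * P) := by ring
      _ ≤ (N : ℝ) * (K * #S') :=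
          mul_le_mul_of_nonneg_left (le_trans hbox hR) (Nat.cast_nonneg _)
      _ = K * ((N : ℝ) * #S') := by ring
      _ ≤ K * ((P : ℝ) * #A0) := mul_le_mul_of_nonneg_left hu' hK0
      _ = (P : ℝ) * (K * #A0) := by ring

lemma bound_aux {κ d E M : ℝ} (hκ : 0 < κ) (hd : 1 ≤ d) (hE : 1 ≤ E) (hM0 : 0 ≤ M)
    (hM : M ≤ 2 * E) : d * (4 * M) ^ 2 / κ + 2 ≤ (64 / κ + 2) * d * (E * E) := by
  have hmm : M * M ≤ (2 * E) * (2 * E) := mul_self_le_mul_self hM0 hM
  have h1 : d * (4 * M) ^ 2 ≤ 64 * d * (E * E) := by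
    have := mul_le_mul_of_nonneg_left hmm (by linarith : 0 ≤ 16 * d)
    linarith
  have h2 : (1 : ℝ) ≤ d * (E * E) :=
    one_le_mul_of_one_le_of_one_le hd (one_le_mul_of_one_le_of_one_le hE hE)
  have h3 : d * (4 * M) ^ 2 / κ ≤ 64 * d * (E * E) / κ :=
    div_le_div_of_nonneg_right h1 hκ.le
  calc _ ≤ 64 * d * (E * E) / κ + 2 * (d * (E * E)) := by linarith
    _ = _ := by ring

lemma y_lower {γ s L E dd : ℝ} (hγ : 0 < γ) (hs : 1 ≤ s) (hd : dd ≤ s + 1) (hd0 : 0 < dd)
    (hL : L = γ * (s * s) / 2) (hE : 0 ≤ E) : γ * s / 4 ≤ (L + E) / dd := by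
  rw [le_div_iff₀ hd0, hL]
  have h := mul_le_mul_of_nonneg_left hd (by positivity : 0 ≤ γ * s / 4)
  have h2 : γ * s / 4 * 1 ≤ γ * s / 4 * s := mul_le_mul_of_nonneg_left hs (by positivity)
  linarith

lemma m_big {γ s y dd : ℝ} {m : ℕ} (hγ : 0 < γ) (hs : 1 ≤ s) (hd : dd ≤ s + 1)
    (hys : γ * s / 4 ≤ y) (hm : Real.exp y ≤ (m : ℝ)) (h3 : (10 : ℝ) ^ 5 ≤ s * γ)
    (h2 : 256 ≤ s * γ ^ 2) : 10 ^ 7 ≤ m ∧ dd ≤ Real.sqrt m := by
  have hy0 : 0 ≤ y := le_trans (by positivity) hys
  constructor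
  · have := Real.quadratic_le_exp_of_nonneg hy0
    have h5 : (25000 : ℝ) * 25000 ≤ y * y :=
      mul_self_le_mul_self (by norm_num) (by linarith)
    have : (10 : ℝ) ^ 7 ≤ (m : ℝ) := by nlinarith
    exact_mod_cast this
  · have e : Real.exp (y / 2) ≤ Real.sqrt m := by
      rw [Real.exp_half]
      exact Real.sqrt_le_sqrt hm
    refine le_trans ?_ e
    have := Real.quadratic_le_exp_of_nonneg (show 0 ≤ y / 2 by positivity)
    have h7 : (γ * s / 8) * (γ * s / 8) ≤ (y / 2) * (y / 2) :=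
      mul_self_le_mul_self (by positivity) (by linarith)
    have h8 := mul_le_mul_of_nonneg_right h2 (by linarith : (0 : ℝ) ≤ s)
    nlinarith

/-- The top lemma, counting and optimisation: `2 √(2γ)` with `γ = - log w`. -/
theorem top_asymptotic {D : ℕ} {w κ : ℝ} {Fr : Finset ℤ → Prop} (hF : ShellHyp D w κ Fr)
    (hw0 : 0 < w) (hw1 : w < 1) (hκ : 0 < κ) :
    ∀ ε > (0 : ℝ), ∀ᶠ N : ℕ in Filter.atTop, ∃ A : Finset ℤ,
      A ⊆ Finset.Ico 0 (N : ℤ) ∧ Fr A ∧
      (N : ℝ) * Real.exp (-(2 * Real.sqrt (2 * -Real.log w) + ε) * Real.sqrt (Real.log N))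
        ≤ #A := by
  intro ε hε
  set γ : ℝ := -Real.log w with hγdef
  have hγ : 0 < γ := by
    have := Real.log_neg hw0 hw1
    rw [hγdef]; linarith
  set c : ℝ := Real.sqrt (2 / γ) with hc
  have hc0 : 0 < c := by positivity
  have hc2 : c * c = 2 / γ := Real.mul_self_sqrt (by positivity)
  have hγc : γ * (c * c) = 2 := by rw [hc2]; field_simp
  have hsum : γ * c + 2 / c = 2 * Real.sqrt (2 * γ) := by
    have e : Real.sqrt (2 * γ) = γ * c := by
      rw [Real.sqrt_eq_iff_mul_self_eq (by positivity) (by positivity)]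
      calc (2 : ℝ) * γ = γ * (γ * (c * c)) := by rw [hγc]; ring
        _ = _ := by ring
    have e2 : 2 / c = γ * c := by
      rw [div_eq_iff hc0.ne', mul_assoc, hγc]
    rw [e, e2]; ring
  set a : ℝ := ε / (2 * c) with ha
  have ha0 : 0 < a := by positivity
  set K : ℝ := 64 / κ + 2 with hK
  have hK0 : 0 < K := by positivity
  set Ct : ℝ := γ + Real.log K + a - Real.log a + 2 * D * Real.log 2 with hCt
  have hq : Filter.Tendsto (fun N : ℕ => Real.sqrt (Real.log N)) Filter.atTop Filter.atTop :=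
    Real.tendsto_sqrt_atTop.comp (Real.tendsto_log_atTop.comp tendsto_natCast_atTop_atTop)
  filter_upwards [hq.eventually_ge_atTop (1 / c), hq.eventually_ge_atTop (256 / γ ^ 2 / c),
    hq.eventually_ge_atTop (10 ^ 5 / γ / c), hq.eventually_ge_atTop (2 * Ct / ε),
    Filter.eventually_ge_atTop 1] with N h1 h2 h3 h4 hN1
  set q := Real.sqrt (Real.log N) with hqdef
  rw [div_le_iff₀ hc0] at h1 h2 h3
  rw [div_le_iff₀ hε] at h4
  set L := Real.log N with hL
  have hNpos : (0 : ℝ) < N := by exact_mod_cast hN1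
  have hL0 : 0 ≤ L := Real.log_nonneg (by exact_mod_cast hN1)
  have hqq : q * q = L := Real.mul_self_sqrt hL0
  set s : ℝ := c * q with hs
  have hs1 : (1 : ℝ) ≤ s := by rw [hs]; linarith
  set d : ℕ := ⌈s⌉₊ with hd
  have hds : s ≤ (d : ℝ) := Nat.le_ceil s
  have hds' : (d : ℝ) ≤ s + 1 := (Nat.ceil_lt_add_one (by linarith)).le
  have hd0 : (0 : ℝ) < d := by linarith
  have hdn : 0 < d := by exact_mod_cast hd0
  have hlog2 : 0 < Real.log 2 := Real.log_pos (by norm_num)
  set y : ℝ := (L + D * Real.log 2) / d with hy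
  have hy0 : 0 ≤ y := by positivity
  have hys : γ * s / 4 ≤ y := by
    rw [hy]
    refine y_lower hγ hs1 hds' hd0 ?_ (by positivity)
    calc L = q * q * (γ * (c * c)) / 2 := by rw [hγc, ← hqq]; ring
      _ = _ := by rw [hs]; ring
  set m : ℕ := ⌈Real.exp y⌉₊ with hm
  have hm1 : Real.exp y ≤ (m : ℝ) := Nat.le_ceil _
  have hm2 : (m : ℝ) ≤ 2 * Real.exp y := by
    have := Nat.ceil_lt_add_one (Real.exp_pos y).le
    have := Real.one_le_exp hy0
    rw [hm]; linarith
  have hbig := m_big hγ hs1 hds' hys hm1 (by rw [div_le_iff₀ hγ] at h3; rw [hs]; linarith)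
    (by rw [div_le_iff₀ (by positivity)] at h2; rw [hs]; linarith)
  have hm7 : 10 ^ 7 ≤ m := hbig.1
  have hdm : (d : ℝ) ≤ Real.sqrt m := hbig.2
  have hcard : d ≤ #((Finset.Ioc m (4 * m)).filter Nat.Prime) := by
    exact_mod_cast le_trans hdm (primes_avail m hm7)
  obtain ⟨T, hT, hTc⟩ := Finset.exists_subset_card_eq hcard
  let p : Fin d → ℕ := fun t => T.orderEmbOfFin hTc t
  have hpm : ∀ t, (m < p t ∧ p t ≤ 4 * m) ∧ (p t).Prime := by
    intro t
    have := hT (T.orderEmbOfFin_mem hTc t)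
    simp only [Finset.mem_filter, Finset.mem_Ioc] at this
    exact this
  have hprod : 2 ^ D * N < ∏ t, p t := by
    have hlt : (m : ℕ) ^ d < ∏ t, p t := by
      have : ∏ _t : Fin d, m < ∏ t, p t :=
        Finset.prod_lt_prod_of_nonempty (fun _ _ => by omega) (fun t _ => (hpm t).1.1)
          ⟨⟨0, hdn⟩, Finset.mem_univ _⟩
      simpa using this
    refine lt_of_le_of_lt ?_ hlt
    have : ((2 ^ D * N : ℕ) : ℝ) ≤ ((m ^ d : ℕ) : ℝ) := by
      push_cast
      calc (2 : ℝ) ^ D * N = Real.exp (D * Real.log 2 + L) := by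
            rw [Real.exp_add, hL, Real.exp_log hNpos, Real.exp_nat_mul,
              Real.exp_log (by norm_num : (0 : ℝ) < 2)]
        _ = Real.exp y ^ d := by
            rw [← Real.exp_nat_mul, hy]; congr 1; field_simp; ring
        _ ≤ (m : ℝ) ^ d := pow_le_pow_left₀ (Real.exp_pos y).le hm1 d
    exact_mod_cast this
  obtain ⟨A, hA1, hA2, hA3⟩ := construct hF hw0 hw1 hκ hdn (by omega) p (fun t => (hpm t).2)
    (T.orderEmbOfFin hTc).injective (fun t => (hpm t).1.1) (fun t => (hpm t).1.2) hprod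
  refine ⟨A, hA1, hA2, ?_⟩
  set Z : ℝ := Real.exp (Real.log K + Real.log d + 2 * y) with hZ
  have hZ0 : 0 < Z := Real.exp_pos _
  have hbound : (d : ℝ) * (4 * m : ℝ) ^ 2 / κ + 2 ≤ Z := by
    rw [hZ, Real.exp_add, Real.exp_add, Real.exp_log hK0, Real.exp_log hd0,
      show 2 * y = y + y by ring, Real.exp_add, hK]
    exact bound_aux hκ (by linarith) (Real.one_le_exp hy0) (Nat.cast_nonneg m) hm2
  have hlogd : Real.log d ≤ a * d - Real.log a := by
    have := Real.log_le_sub_one_of_pos (mul_pos ha0 hd0)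
    rw [Real.log_mul ha0.ne' hd0.ne'] at this
    linarith
  have hloss : γ * d + (Real.log K + Real.log d + 2 * y)
      ≤ (2 * Real.sqrt (2 * γ) + ε) * q := by
    have hy2 : y ≤ L / s + D * Real.log 2 := by
      rw [hy, add_div]
      refine add_le_add (div_le_div_of_nonneg_left hL0 (by linarith) hds) ?_
      exact div_le_self (by positivity) (by linarith)
    have hLs : 2 * (L / s) = 2 / c * q := by
      have hq0 : q ≠ 0 := by
        intro h
        rw [hs, h, mul_zero] at hs1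
        linarith
      rw [hs, ← hqq]; field_simp
    have hac : a * s = ε * q / 2 := by
      rw [hs, ha]; field_simp
    have hγd : γ * d ≤ γ * c * q + γ := by
      calc γ * d ≤ γ * (s + 1) := mul_le_mul_of_nonneg_left hds' hγ.le
        _ = _ := by rw [hs]; ring
    have had : a * d ≤ a * (s + 1) := mul_le_mul_of_nonneg_left hds' ha0.le
    rw [hCt] at h4
    calc γ * d + (Real.log K + Real.log d + 2 * y)
        ≤ γ * c * q + 2 / c * q + ε * q / 2
          + (γ + Real.log K + a - Real.log a + 2 * D * Real.log 2) := by linarith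
      _ ≤ (γ * c + 2 / c + ε) * q := by linarith
      _ = _ := by rw [hsum]
  have hwd : w ^ d = Real.exp (-(γ * d)) := by
    rw [hγdef, show -(-Real.log w * (d : ℝ)) = (d : ℝ) * Real.log w by ring, Real.exp_nat_mul,
      Real.exp_log hw0]
  refine le_of_mul_le_mul_right ?_ hZ0
  calc (N : ℝ) * Real.exp (-(2 * Real.sqrt (2 * γ) + ε) * q) * Z
      = (N : ℝ) * Real.exp (-(2 * Real.sqrt (2 * γ) + ε) * q
          + (Real.log K + Real.log d + 2 * y)) := by rw [Real.exp_add, hZ]; ring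
    _ ≤ (N : ℝ) * Real.exp (-(γ * d)) :=
        mul_le_mul_of_nonneg_left (Real.exp_le_exp.2 (by linarith)) hNpos.le
    _ = (N : ℝ) * w ^ d := by rw [hwd]
    _ ≤ _ := hA3
    _ ≤ Z * #A := mul_le_mul_of_nonneg_right hbound (Nat.cast_nonneg _)
    _ = (#A : ℝ) * Z := mul_comm _ _

end Vale.Agent.P057.TopCount
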