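import Mathlib
import Vale.Agent.P057.Shell
import Vale.Agent.P057.TopCount

/-!
The shell hypothesis of the counting part holds: shell sets are free, for P057.
-/

namespace Vale.Agent.P057

theorem frac_eq (q : ℕ) (hq : 0 < q) (z : ℤ) : TopCount.frac q z = Int.fract ((z : ℝ) / q) := by
  have h : (0 : ℝ) < q := by exact_mod_cast hq
  rw [TopCount.frac]
  symm
  rw [Int.fract_eq_iff]
  refine ⟨div_nonneg (by exact_mod_cast Int.emod_nonneg z (by omega : (q : ℤ) ≠ 0)) h.le, ?_,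
    z / (q : ℤ), ?_⟩
  · rw [div_lt_one h]; exact_mod_cast Int.emod_lt_of_pos z (by exact_mod_cast hq)
  · have := Int.emod_add_mul_ediv z (q : ℤ)
    have e : ((z % (q : ℤ) : ℤ) : ℝ) + q * ((z / (q : ℤ) : ℤ) : ℝ) = z := by exact_mod_cast this
    field_simp
    linarith

/-- For `k ≥ 3D + 2`, a shell set with `κ * 4^(2D+1) ≤ 1` has no non-constant progression of
order `D` with `k` terms. -/
theorem shellHyp_free {D k : ℕ} (hD : 2 ≤ D) (hk : 3 * D + 2 ≤ k) {w κ : ℝ}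
    (hw : w + D * (2 ^ D * w - 1) < 1) (hκ : κ * ((2 : ℝ) ^ (2 * D + 1)) ^ 2 < 1) :
    TopCount.ShellHyp D w κ (fun A => ∀ p : ℕ → ℤ, (∀ j < k, p j ∈ A) →
      (∀ j, j + (D + 1) < k → (fwdDiff 1)^[D + 1] p j = 0) → ∀ j < k, p j = p 0) := by
  intro d p B N u R hp h2 hinj hB hP A hA hfr hR
  rcases Nat.eq_zero_or_pos d with rfl | hd
  · simp at hP
    obtain rfl : N = 0 := by simpa using hP
    intro q hq _ j hj
    have := hA (hq j hj)
    simp at this
  have hB0 : (0 : ℝ) < B := by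
    exact_mod_cast ((hp ⟨0, hd⟩).pos).trans_le (hB _)
  refine free_shell hD hk p hp hinj h2 hB N hP w R (κ / (B : ℝ) ^ 2) hw ?_ (u : ℤ) A
    (fun a ha => by simpa using hA ha) fun a ha => ?_
  · calc κ / (B : ℝ) ^ 2 * (2 ^ (2 * D + 1) * B) ^ 2 = κ * ((2 : ℝ) ^ (2 * D + 1)) ^ 2 := by
          field_simp
      _ < 1 := hκ
  · have e : ∀ t, TopCount.frac (p t) (a + u) = Int.fract (((a + (u : ℤ) : ℤ) : ℝ) / p t) :=
      fun t => frac_eq _ (hp t).pos _
    simp only [← e]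
    exact ⟨fun t => (hfr a ha t).le, (hR a ha).1, (hR a ha).2.le⟩

end Vale.Agent.P057
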