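import Vale.Agent.P057.Digit
import Vale.Agent.P057.TopFree

/-!
# P057: assembly of the lower bound
-/

namespace Vale.Agent.P057

open Finset Filter

/-- The top level: a box on a torus of primes. -/
lemma good_top_box {D k : ℕ} (hD : 2 ≤ D) (hk : 3 * D + 2 ≤ k) {w : ℝ} (hw0 : 0 < w) (hw1 : w < 1)
    (hw : w + D * (2 ^ D * w - 1) < 1) :
    Good D k 2 (2 * Real.sqrt (2 * -Real.log w)) := by
  intro ε hε
  have hpow : (0 : ℝ) < ((2 : ℝ) ^ (2 * D + 1)) ^ 2 := by positivity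
  have hκ : 1 / (2 * ((2 : ℝ) ^ (2 * D + 1)) ^ 2) * ((2 : ℝ) ^ (2 * D + 1)) ^ 2 < 1 := by
    rw [div_mul_eq_mul_div, one_mul, div_lt_one (by positivity)]
    linarith
  obtain ⟨N₀, hN⟩ := eventually_atTop.1 (TopCount.top_asymptotic (shellHyp_free hD hk hw hκ)
    hw0 hw1 (by positivity) ε hε)
  refine ⟨N₀, fun N hle => ?_⟩
  obtain ⟨A, hA, hfree, hc⟩ := hN N hle
  refine ⟨A, fun a ha => Finset.mem_Ico.1 (hA ha), ?_, ?_⟩
  · intro p hp hd
    exact hfree p hp fun j hj => hd j (by omega)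
  · refine le_trans (le_of_eq ?_) hc
    rw [Nat.cast_ofNat, ← Real.sqrt_eq_rpow, neg_mul]

/-- The top level with the limiting box. -/
lemma good_top {D k : ℕ} (hD : 2 ≤ D) (hk : 3 * D + 2 ≤ k) :
    Good D k 2 (2 * Real.sqrt (2 * Real.log ((1 + D * 2 ^ D) / (1 + D)))) := by
  refine good_of_forall fun η hη => ?_
  have hD0 : (2 : ℝ) ≤ D := by exact_mod_cast hD
  have h2 : (4 : ℝ) ≤ 2 ^ D := by
    calc (4 : ℝ) = 2 ^ 2 := by norm_num
      _ ≤ _ := pow_le_pow_right₀ (by norm_num) hD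
  set w₀ : ℝ := (1 + D) / (1 + D * 2 ^ D) with hw₀
  have hpos : 0 < w₀ := by positivity
  have hlt : w₀ < 1 := by
    rw [hw₀, div_lt_one (by positivity)]
    nlinarith
  have hcont : ContinuousAt (fun t : ℝ => 2 * Real.sqrt (2 * -Real.log (w₀ * t))) 1 := by
    refine ContinuousAt.mul continuousAt_const (Real.continuous_sqrt.continuousAt.comp ?_)
    exact continuousAt_const.mul ((Real.continuousAt_log (by simpa using hpos.ne')).comp
      (f := fun t : ℝ => w₀ * t) (by fun_prop)).neg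
  have hev := hcont.eventually_lt continuousAt_const
    (show 2 * Real.sqrt (2 * -Real.log (w₀ * 1)) <
      2 * Real.sqrt (2 * -Real.log w₀) + η by rw [mul_one]; linarith)
  obtain ⟨t, ⟨ht, ht0⟩, ht1⟩ :=
    (((hev.filter_mono nhdsWithin_le_nhds).and
      ((eventually_gt_nhds (show (0 : ℝ) < 1 by norm_num)).filter_mono nhdsWithin_le_nhds)).and
      (self_mem_nhdsWithin (s := Set.Iio (1 : ℝ)))).exists
  have hbox : w₀ * t + D * (2 ^ D * (w₀ * t) - 1) < 1 := by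
    have : w₀ * (1 + D * 2 ^ D) = 1 + D := by rw [hw₀]; field_simp
    nlinarith [mul_lt_mul_of_pos_left (show t < 1 from ht1)
      (show 0 < w₀ * (1 + D * 2 ^ D) by positivity)]
  have hG := good_top_box hD hk (mul_pos hpos ht0)
    (lt_of_lt_of_le (mul_lt_mul_of_pos_left (show t < 1 from ht1) hpos) (by linarith)) hbox
  have hlog : Real.log ((1 + D * 2 ^ D) / (1 + D)) = -Real.log w₀ := by
    rw [hw₀, ← Real.log_inv, inv_div]
  intro ε hε
  obtain ⟨N₀, hN⟩ := hG ε hε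
  refine ⟨N₀, fun N hle => ?_⟩
  obtain ⟨A, hA, hfree, hc⟩ := hN N hle
  refine ⟨A, hA, hfree, le_trans ?_ hc⟩
  rw [hlog]
  refine mul_le_mul_of_nonneg_left (Real.exp_le_exp.2 ?_) (Nat.cast_nonneg N)
  refine neg_le_neg (mul_le_mul_of_nonneg_right (by linarith) (Real.rpow_nonneg ?_ _))
  exact Real.log_natCast_nonneg N

/-- One halving of the degree with the optimal parameter. -/
lemma good_halve {D k q : ℕ} (hq : 1 ≤ q) (hD : 0 < D) (hk : 2 * D + 1 ≤ k) {T : ℝ} (hT : 0 < T)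
    (h : Good (2 * D) k q (q * T ^ ((1 : ℝ) / q))) :
    Good D k (q + 1)
      ((q + 1 : ℕ) * ((2 * D : ℕ) * Real.log 2 * T) ^ ((1 : ℝ) / (q + 1 : ℕ))) := by
  have hl : 0 < Real.log 2 := Real.log_pos (by norm_num)
  have hDr : (0 : ℝ) < D := by exact_mod_cast hD
  have hqr : (0 : ℝ) < q := by exact_mod_cast (show 0 < q by omega)
  push_cast
  set K := (2 * (D : ℝ) * Real.log 2 * T) ^ ((1 : ℝ) / ((q : ℝ) + 1)) with hK
  have hb : (0 : ℝ) < 2 * D * Real.log 2 * T := by positivity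
  have hK0 : 0 < K := Real.rpow_pos_of_pos hb _
  have hKp : K ^ (q + 1) = 2 * D * Real.log 2 * T := by
    rw [hK, show (q : ℝ) + 1 = ((q + 1 : ℕ) : ℝ) by push_cast; ring, one_div]
    exact Real.rpow_inv_natCast_pow hb.le (Nat.succ_ne_zero q)
  have e : T ^ ((1 : ℝ) / q) * (2 / (K / (D * Real.log 2))) ^ ((1 : ℝ) / q) = K := by
    rw [← Real.mul_rpow hT.le (by positivity),
      show T * (2 / (K / (D * Real.log 2))) = K ^ q by
        field_simp
        rw [← pow_succ', hKp]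
        ring,
      one_div, Real.pow_rpow_inv_natCast hK0.le (by omega)]
  refine good_congr ?_ (good_digit hq hk (by positivity) h
    (lam := K / (D * Real.log 2)) (by positivity))
  rw [mul_assoc (q : ℝ), e]
  field_simp
  ring

/-- The lower bound for progressions. -/
theorem good_one {n k : ℕ} (hn : 3 ≤ n) (hk : 3 * 2 ^ (n - 2) + 2 ≤ k) :
    Good 1 k n ((n : ℝ) * 2 ^ (((n : ℝ) - 1) / 2) * Real.log 2 ^ (1 - 1 / (n : ℝ)) *
      (Real.log ((1 + 2 ^ (n - 2) * 2 ^ (2 ^ (n - 2))) / (1 + 2 ^ (n - 2))) /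
        (2 ^ (n - 2) * Real.log 2)) ^ (1 / (n : ℝ))) := by
  have hl : 0 < Real.log 2 := Real.log_pos (by norm_num)
  set D := 2 ^ (n - 2) with hD
  set γ := Real.log ((1 + (D : ℝ) * 2 ^ D) / (1 + D)) with hγ
  have hD2 : 2 ≤ D := Nat.le_self_pow (show n - 2 ≠ 0 by omega) 2
  have hγ0 : 0 < γ := by
    refine Real.log_pos ?_
    rw [lt_div_iff₀ (by positivity)]
    have : (4 : ℝ) ≤ 2 ^ D := by
      calc (4 : ℝ) = 2 ^ 2 := by norm_num
        _ ≤ _ := pow_le_pow_right₀ (by norm_num) hD2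
    have : (2 : ℝ) ≤ D := by exact_mod_cast hD2
    nlinarith
  have main : ∀ j, j ≤ n - 2 → Good (2 ^ (n - 2 - j)) k (j + 2) (((j + 2 : ℕ) : ℝ) *
      (2 * γ * Real.log 2 ^ j * (2 : ℝ) ^ ((j : ℝ) * (2 * n - 3 - j) / 2)) ^
        ((1 : ℝ) / (j + 2 : ℕ))) := by
    intro j
    induction j with
    | zero =>
      intro _
      refine good_congr ?_ (good_top (k := k) hD2 hk)
      simp [Real.sqrt_eq_rpow, hγ, hD]
    | succ j ih =>
      intro hj
      have h := ih (by omega)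
      rw [show 2 ^ (n - 2 - j) = 2 * 2 ^ (n - 2 - (j + 1)) by
        rw [← pow_succ']; congr 1; omega] at h
      have hk' : 2 * 2 ^ (n - 2 - (j + 1)) + 1 ≤ k := by
        have : 2 * 2 ^ (n - 2 - (j + 1)) ≤ 2 ^ (n - 2) := by
          rw [← pow_succ']
          exact Nat.pow_le_pow_right (by norm_num) (by omega)
        omega
      refine good_congr ?_ (good_halve (by omega) (by positivity) hk' (by positivity) h)
      rw [show j + 2 + 1 = j + 1 + 2 by omega]
      congr 1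
      congr 1
      have e2 : ((2 * 2 ^ (n - 2 - (j + 1)) : ℕ) : ℝ) = (2 : ℝ) ^ ((n : ℝ) - 2 - j) := by
        rw [← pow_succ', show n - 2 - (j + 1) + 1 = n - 2 - j by omega, Nat.cast_pow,
          Nat.cast_ofNat, ← Real.rpow_natCast, Nat.cast_sub (by omega), Nat.cast_sub (by omega)]
        norm_num
      rw [e2]
      push_cast
      rw [show ((j : ℝ) + 1) * (2 * n - 3 - (j + 1)) / 2 =
        (j : ℝ) * (2 * n - 3 - j) / 2 + ((n : ℝ) - 2 - j) by ring,
        Real.rpow_add (by norm_num), pow_succ]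
      ring
  have h := main (n - 2) le_rfl
  rw [show n - 2 + 2 = n by omega, Nat.sub_self, pow_zero] at h
  refine good_congr ?_ h
  have hn0 : (0 : ℝ) < n := by exact_mod_cast (show 0 < n by omega)
  have hcast : ((n - 2 : ℕ) : ℝ) = (n : ℝ) - 2 := by
    rw [Nat.cast_sub (by omega)]; norm_num
  rw [hcast, show ((2 : ℝ) ^ (n - 2) * 2 ^ (2 ^ (n - 2))) = (D : ℝ) * 2 ^ D by
    rw [hD]; push_cast; ring, show ((2 : ℝ) ^ (n - 2)) = (D : ℝ) by rw [hD]; push_cast; ring,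
    ← hγ, mul_assoc (n : ℝ), mul_assoc (n : ℝ)]
  congr 1
  have hDr : (D : ℝ) = 2 ^ ((n : ℝ) - 2) := by
    rw [hD, Nat.cast_pow, Nat.cast_ofNat, ← Real.rpow_natCast, hcast]
  have h2 : (2 : ℝ) ^ (((n : ℝ) - 1) / 2) = (2 ^ ((n : ℝ) * (((n : ℝ) - 1) / 2))) ^ (1 / (n : ℝ)) := by
    rw [← Real.rpow_mul (by norm_num)]
    congr 1
    field_simp
  have h3 : Real.log 2 ^ (1 - 1 / (n : ℝ)) = (Real.log 2 ^ ((n : ℝ) - 1)) ^ (1 / (n : ℝ)) := by
    rw [← Real.rpow_mul hl.le]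
    congr 1
    field_simp
  have hb : (0 : ℝ) ≤ γ / (D * Real.log 2) := by positivity
  rw [h2, h3, ← Real.mul_rpow (x := (2 : ℝ) ^ ((n : ℝ) * (((n : ℝ) - 1) / 2))) (by positivity)
      (by positivity),
    ← Real.mul_rpow (by positivity) hb]
  congr 1
  rw [hDr, ← Real.rpow_natCast (Real.log 2) (n - 2), hcast,
    show (n : ℝ) * (((n : ℝ) - 1) / 2) =
      ((n : ℝ) - 2) * (2 * n - 3 - ((n : ℝ) - 2)) / 2 + 1 + ((n : ℝ) - 2) by ring,
    show (n : ℝ) - 1 = (n : ℝ) - 2 + 1 by ring,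
    Real.rpow_add (by norm_num), Real.rpow_add (by norm_num), Real.rpow_add hl, Real.rpow_one,
    Real.rpow_one]
  field_simp

/-- The new factor is less than one. -/
lemma theta_lt_one {n : ℕ} (hn : 3 ≤ n) :
    0 ≤ Real.log ((1 + 2 ^ (n - 2) * 2 ^ (2 ^ (n - 2))) / (1 + 2 ^ (n - 2))) /
        (2 ^ (n - 2) * Real.log 2) ∧
    Real.log ((1 + 2 ^ (n - 2) * 2 ^ (2 ^ (n - 2))) / (1 + 2 ^ (n - 2))) /
        (2 ^ (n - 2) * Real.log 2) < 1 := by
  have hl : 0 < Real.log 2 := Real.log_pos (by norm_num)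
  set D := 2 ^ (n - 2) with hD
  have hD2 : 2 ≤ D := Nat.le_self_pow (show n - 2 ≠ 0 by omega) 2
  have hDr : ((2 : ℝ) ^ (n - 2)) = (D : ℝ) := by rw [hD]; push_cast; ring
  rw [hDr]
  have hD0 : (2 : ℝ) ≤ D := by exact_mod_cast hD2
  have h4 : (4 : ℝ) ≤ 2 ^ D := by
    calc (4 : ℝ) = 2 ^ 2 := by norm_num
      _ ≤ _ := pow_le_pow_right₀ (by norm_num) hD2
  refine ⟨div_nonneg (Real.log_nonneg ?_) (by positivity), ?_⟩
  · rw [le_div_iff₀ (by positivity)]; nlinarith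
  · rw [div_lt_one (by positivity), ← Real.log_pow]
    refine Real.log_lt_log (by positivity) ?_
    rw [div_lt_iff₀ (by positivity)]
    nlinarith

/-- The bound for progressions in `[1, N]`. -/
theorem progression_bound {n k : ℕ} (hn : 3 ≤ n) (hk : 3 * 2 ^ (n - 2) + 2 ≤ k) {ε : ℝ}
    (hε : 0 < ε) :
    ∃ N₀ : ℕ, ∀ N : ℕ, N₀ ≤ N → ∃ A : Finset ℕ, A ⊆ Finset.Icc 1 N ∧
      (∀ a d : ℕ, 0 < d → ∃ i < k, a + i * d ∉ A) ∧
      (N : ℝ) * Real.exp (-(((n : ℝ) * 2 ^ (((n : ℝ) - 1) / 2) *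
        Real.log 2 ^ (1 - 1 / (n : ℝ)) *
        (Real.log ((1 + 2 ^ (n - 2) * 2 ^ (2 ^ (n - 2))) / (1 + 2 ^ (n - 2))) /
          (2 ^ (n - 2) * Real.log 2)) ^ (1 / (n : ℝ)) + ε) *
        Real.log N ^ (1 / (n : ℝ)))) ≤ A.card := by
  obtain ⟨N₀, hN⟩ := good_one hn hk ε hε
  refine ⟨N₀, fun N hle => ?_⟩
  obtain ⟨A₀, hA, hfree, hc⟩ := hN N hle
  refine ⟨A₀.image fun a => (a + 1).toNat, ?_, ?_, ?_⟩
  · intro b hb
    obtain ⟨a, ha, rfl⟩ := Finset.mem_image.1 hb
    have := hA a ha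
    rw [Finset.mem_Icc]
    omega
  · intro a d hd
    by_contra hall
    push Not at hall
    have hmem : ∀ i < k, (a : ℤ) + i * d - 1 ∈ A₀ := by
      intro i hi
      obtain ⟨b, hb, e⟩ := Finset.mem_image.1 (hall i hi)
      have := hA b hb
      have : (a : ℤ) + i * d - 1 = b := by
        have := congrArg (fun z : ℕ => (z : ℤ)) e
        push_cast at this
        omega
      rwa [this]
    have h := hfree (fun i => (a : ℤ) + i * d - 1) hmem (fun j _ => ?_) 1 (by omega)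
    · simp at h
      omega
    · simp only [Nat.reduceAdd, Function.iterate_succ, Function.iterate_zero, Function.comp_apply,
        fwdDiff, id_eq]
      push_cast
      ring
  · rw [Finset.card_image_of_injOn]
    · exact hc
    · intro a ha b hb e
      have := hA a ha
      have := hA b hb
      simp only at e
      omega

end Vale.Agent.P057
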