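import Vale.Agent.P057.CascadeStep

/-!
# P057: the cascade, assembly
-/

namespace Vale.Agent.P057.Cascade

open Finset Polynomial

/-- One halving of the degree with the optimal parameter. -/
lemma good_halve {D g gn k q : ℕ} (hq : 1 ≤ q) (hD : 1 ≤ D) (hg : g ≤ D)
    (hgn : g = 0 ∨ D + g ≤ gn) (hk : 3 * D + g + 1 ≤ k) (hP : 2 ≤ pos (Lpoly D g)) {T : ℝ}
    (hT : 0 < T) (h : Good (2 * D) gn k q (q * T ^ ((1 : ℝ) / q))) :
    Good D g k (q + 1)
      ((q + 1 : ℕ) * (2 * Real.log (pos (Lpoly D g) : ℝ) * T) ^ ((1 : ℝ) / (q + 1 : ℕ))) := by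
  have hl : 0 < Real.log (pos (Lpoly D g) : ℝ) :=
    Real.log_pos (by exact_mod_cast (show (1 : ℤ) < _ by omega))
  set l := Real.log (pos (Lpoly D g) : ℝ) with hldef
  have hqr : (0 : ℝ) < q := by exact_mod_cast (show 0 < q by omega)
  push_cast
  set K := (2 * l * T) ^ ((1 : ℝ) / ((q : ℝ) + 1)) with hK
  have hb : (0 : ℝ) < 2 * l * T := by positivity
  have hK0 : 0 < K := Real.rpow_pos_of_pos hb _
  have hKp : K ^ (q + 1) = 2 * l * T := by
    rw [hK, show (q : ℝ) + 1 = ((q + 1 : ℕ) : ℝ) by push_cast; ring, one_div]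
    exact Real.rpow_inv_natCast_pow hb.le (Nat.succ_ne_zero q)
  have e : T ^ ((1 : ℝ) / q) * (2 / (K / l)) ^ ((1 : ℝ) / q) = K := by
    rw [← Real.mul_rpow hT.le (by positivity),
      show T * (2 / (K / l)) = K ^ q by
        field_simp
        rw [← pow_succ', hKp]
        ring,
      one_div, Real.pow_rpow_inv_natCast hK0.le (by omega)]
  refine good_congr ?_ (good_digit hq hD hg hgn hk (by positivity) h
    (lam := K / l) (by positivity))
  rw [mul_assoc (q : ℝ), e, ← hldef]
  field_simp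
  ring

lemma two_le_pos_Lpoly {D g : ℕ} (hD : 1 ≤ D) : 2 ≤ pos (Lpoly D g) := by
  by_contra h
  set L := Lpoly D g with hL
  set r := L.natDegree with hr
  have hlead : L.coeff r = 1 := (Lpoly_monic D g).leadingCoeff
  have hle : ∀ i ∈ range r, L.coeff i ≤ 0 := by
    intro i hi
    have hi' := mem_range.1 hi
    have h2 := Finset.add_le_sum (f := fun i => max (L.coeff i) 0) (s := range (r + 1))
      (fun j _ => le_max_right _ _) (mem_range.2 (by omega : i < r + 1)) (self_mem_range_succ r)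
      (by omega)
    have h3 : max (L.coeff i) 0 + max (L.coeff r) 0 ≤ pos L := h2
    rw [hlead] at h3
    omega
  have s1 : ∑ i ∈ range (r + 1), L.coeff i = 0 := by
    have := Lpoly_eval_one D g
    rw [← hL, eval_eq_sum_range] at this
    simpa using this
  have hder : L.derivative.eval 1 = 0 := by
    obtain ⟨E, rfl⟩ : ∃ E, D = E + 1 := ⟨D - 1, by omega⟩
    simp [hL, Lpoly, derivative_mul, derivative_pow]
  have hdeg : ∑ i ∈ range (r + 1), L.coeff i * (i : ℤ) = 0 := by
    rw [derivative_eval, sum_over_range' (p := L) (n := r + 1) (by simp) (by omega)] at hder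
    simpa using hder
  have s2 : ∑ i ∈ range r, L.coeff i * ((r : ℤ) - i) = 0 := by
    have : ∑ i ∈ range (r + 1), L.coeff i * ((r : ℤ) - i) = 0 := by
      simp only [mul_sub, sum_sub_distrib, ← Finset.sum_mul, s1, hdeg, zero_mul, sub_zero]
    rw [sum_range_succ] at this
    simpa using this
  have s3 := (sum_eq_zero_iff_of_nonpos fun i hi =>
    mul_nonpos_of_nonpos_of_nonneg (hle i hi) (by have := mem_range.1 hi; omega)).1 s2
  rw [sum_range_succ, hlead, sum_eq_zero fun i hi => ?_] at s1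
  · simp at s1
  rcases mul_eq_zero.1 (s3 i hi) with h0 | h0
  · exact h0
  · have := mem_range.1 hi
    omega

/-- The number of `(-1)`-roots at level `D` for progressions of length `k`, `n` levels. -/
def gLevel (n k D : ℕ) : ℕ := D + 1 - (4 * 2 ^ (n - 2) + 2 - k)

/-- The product of the logarithms of the digit losses. -/
noncomputable def lossProd (n k : ℕ) : ℝ :=
  ∏ i ∈ range (n - 1), Real.log (pos (Lpoly (2 ^ i) (gLevel n k (2 ^ i))) : ℝ)

/-- The cascade. -/
theorem good_cascade {n k : ℕ} (hn : 3 ≤ n) (hk1 : 3 * 2 ^ (n - 2) + 2 ≤ k) (hk2 : k ≤ 2 ^ n) :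
    Good 1 0 k n ((n : ℝ) * (2 ^ (n - 1) * lossProd n k) ^ ((1 : ℝ) / n)) := by
  have hpow : 2 ^ n = 4 * 2 ^ (n - 2) := by
    rw [show 4 = 2 ^ 2 by norm_num, ← pow_add]; congr 1; omega
  have hlpos : ∀ i, 0 < Real.log (pos (Lpoly (2 ^ i) (gLevel n k (2 ^ i))) : ℝ) := by
    intro i
    have := two_le_pos_Lpoly (g := gLevel n k (2 ^ i)) (Nat.one_le_two_pow (n := i))
    exact Real.log_pos (by exact_mod_cast (show (1 : ℤ) < _ by omega))
  have main : ∀ j, j ≤ n - 1 → Good (2 ^ (n - 1 - j)) (gLevel n k (2 ^ (n - 1 - j))) k (j + 1)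
      (((j + 1 : ℕ) : ℝ) * (2 ^ j * ∏ i ∈ Finset.Ico (n - 1 - j) (n - 1),
        Real.log (pos (Lpoly (2 ^ i) (gLevel n k (2 ^ i))) : ℝ)) ^ ((1 : ℝ) / (j + 1 : ℕ))) := by
    intro j
    induction j with
    | zero =>
      intro _
      refine good_congr ?_ (good_base _ _ k)
      simp
    | succ j ih =>
      intro hj
      have h := ih (by omega)
      have hlvl : n - 1 - j = n - 1 - (j + 1) + 1 := by omega
      rw [hlvl, pow_succ'] at h
      have hDa : 2 ^ (n - 1 - (j + 1)) ≤ 2 ^ (n - 2) :=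
        Nat.pow_le_pow_right (by norm_num) (by omega)
      have hD1 : 1 ≤ 2 ^ (n - 1 - (j + 1)) := Nat.one_le_two_pow
      refine good_congr ?_ (good_halve (g := gLevel n k (2 ^ (n - 1 - (j + 1)))) (by omega) hD1
        (by unfold gLevel; omega) (by unfold gLevel; omega) (by unfold gLevel; omega)
        (two_le_pos_Lpoly hD1)
        (mul_pos (by positivity) (prod_pos fun i _ => hlpos i)) h)
      rw [Finset.prod_eq_prod_Ico_succ_bot (show n - 1 - (j + 1) < n - 1 by omega)]
      rw [pow_succ (2 : ℝ)]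
      congr 2
      ring
  have h := main (n - 1) le_rfl
  rw [show n - 1 + 1 = n by omega, Nat.sub_self] at h
  have hg0 : gLevel n k (2 ^ 0) = 0 := by
    have := Nat.one_le_two_pow (n := n - 2)
    simp only [gLevel, pow_zero]
    omega
  rw [hg0, Nat.Ico_zero_eq_range, pow_zero] at h
  exact h

end Vale.Agent.P057.Cascade
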