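import Vale.Agent.P057.CascadeCore

/-!
# P057: the digit loss of the cascade operators
-/

namespace Vale.Agent.P057.Cascade

open Finset Polynomial

/-- The `ℓ¹` norm. -/
noncomputable def l1 (p : ℤ[X]) : ℤ := ∑ i ∈ p.support, |p.coeff i|

lemma l1_eq_sum {p : ℤ[X]} {n : ℕ} (h : p.natDegree < n) : l1 p = ∑ i ∈ range n, |p.coeff i| :=
  sum_subset (fun i hi => mem_range.2 ((le_natDegree_of_mem_supp i hi).trans_lt h))
    (fun i _ hi => by simp [notMem_support_iff.1 hi])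

lemma l1_add_le (p q : ℤ[X]) : l1 (p + q) ≤ l1 p + l1 q := by
  set n := max p.natDegree q.natDegree + 1
  rw [l1_eq_sum (show (p + q).natDegree < n from
      (natDegree_add_le p q).trans_lt (Nat.lt_succ_self _)),
    l1_eq_sum (show p.natDegree < n by omega), l1_eq_sum (show q.natDegree < n by omega),
    ← sum_add_distrib]
  exact sum_le_sum fun i _ => by rw [coeff_add]; exact abs_add_le _ _

lemma l1_neg (p : ℤ[X]) : l1 (-p) = l1 p := by simp [l1, support_neg]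

lemma l1_mul_X_pow (p : ℤ[X]) (m : ℕ) : l1 (p * X ^ m) = l1 p := by
  rw [l1_eq_sum (n := m + (p.natDegree + 1))
      (natDegree_mul_le.trans_lt (by rw [natDegree_X_pow]; omega)),
    sum_range_add, l1_eq_sum (Nat.lt_succ_self p.natDegree)]
  rw [sum_eq_zero fun i hi => by
    rw [coeff_mul_X_pow', if_neg (by simp only [mem_range] at hi; omega), abs_zero]]
  simp [coeff_mul_X_pow']

lemma l1_mul_sub_pow (p : ℤ[X]) (m : ℕ) : ∀ n, l1 (p * (X ^ m - 1) ^ n) ≤ 2 ^ n * l1 p := by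
  intro n
  induction n with
  | zero => simp
  | succ n ih =>
    rw [pow_succ, ← mul_assoc, mul_sub, mul_one, sub_eq_add_neg]
    refine (l1_add_le _ _).trans ?_
    rw [l1_mul_X_pow, l1_neg, pow_succ]
    linarith

lemma two_pos_eq_l1 (D g : ℕ) : 2 * pos (Lpoly D g) = l1 (Lpoly D g) := by
  have h1 := Lpoly_eval_one D g
  rw [eval_eq_sum_range] at h1
  simp only [one_pow, mul_one] at h1
  rw [l1_eq_sum (Nat.lt_succ_self _), pos, mul_sum]
  have : ∀ i, |(Lpoly D g).coeff i| = 2 * max ((Lpoly D g).coeff i) 0 - (Lpoly D g).coeff i := by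
    intro i
    rcases le_total ((Lpoly D g).coeff i) 0 with h | h
    · rw [abs_of_nonpos h, max_eq_right h]; ring
    · rw [abs_of_nonneg h, max_eq_left h]; ring
  rw [sum_congr rfl fun i _ => this i, sum_sub_distrib, h1, sub_zero]

/-- The improved loss. -/
theorem pos_Lpoly_le {D g : ℕ} (hg : 1 ≤ g) (hgD : g + 1 ≤ D) :
    4 * pos (Lpoly D g) ≤ 3 * 2 ^ D := by
  obtain ⟨h, rfl⟩ : ∃ h, g = h + 1 := ⟨g - 1, by omega⟩
  obtain ⟨b, rfl⟩ : ∃ b, D = h + 2 + b := ⟨D - (h + 2), by omega⟩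
  have e : Lpoly (h + 2 + b) (h + 1) =
      ((X - 1) ^ 3 * (X + 1)) * (X ^ 1 - 1) ^ b * (X ^ 2 - 1) ^ h := by
    rw [Lpoly, show (X ^ 2 - 1 : ℤ[X]) = (X - 1) * (X + 1) by ring, mul_pow]
    ring
  have e0 : ((X - 1) ^ 3 * (X + 1) : ℤ[X]) =
      C 1 * X ^ 4 + -(C 2 * X ^ 3) + C 2 * X ^ 1 + -(C 1 * X ^ 0) := by
    simp only [map_ofNat, map_one]
    ring
  have h0 : l1 ((X - 1) ^ 3 * (X + 1) : ℤ[X]) ≤ 6 := by
    have hc : ∀ (c : ℤ) (m : ℕ), l1 (C c * X ^ m) = |c| := fun c m => by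
      rw [l1_mul_X_pow, l1_eq_sum (n := 1) (by simp)]
      simp
    rw [e0]
    refine ((l1_add_le _ _).trans (add_le_add_left ((l1_add_le _ _).trans (add_le_add_left
      (l1_add_le _ _) _)) _)).trans (le_of_eq ?_)
    simp only [l1_neg, hc]
    norm_num
  have := two_pos_eq_l1 (h + 2 + b) (h + 1)
  have hb := l1_mul_sub_pow ((X - 1) ^ 3 * (X + 1) : ℤ[X]) 1 b
  have hh := l1_mul_sub_pow (((X - 1) ^ 3 * (X + 1)) * (X ^ 1 - 1) ^ b : ℤ[X]) 2 h
  rw [← e] at hh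
  have h1 : (2 : ℤ) ^ h * l1 (((X - 1) ^ 3 * (X + 1)) * (X ^ 1 - 1) ^ b : ℤ[X]) ≤
      2 ^ h * (2 ^ b * 6) :=
    mul_le_mul_of_nonneg_left (hb.trans (mul_le_mul_of_nonneg_left h0 (by positivity)))
      (by positivity)
  have e2 : (3 : ℤ) * 2 ^ (h + 2 + b) = 2 * (2 ^ h * (2 ^ b * 6)) := by
    rw [pow_add, pow_add]; ring
  rw [e2]
  linarith

/-- The loss of a pure difference operator. -/
theorem pos_Lpoly_zero (D : ℕ) : pos (Lpoly D 0) ≤ 2 ^ D := by
  have h1 := l1_mul_sub_pow (1 : ℤ[X]) 1 (D + 1)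
  have h2 : l1 (1 : ℤ[X]) = 1 := by
    rw [l1_eq_sum (n := 1) (by simp)]
    simp
  have h3 := two_pos_eq_l1 D 0
  have e : Lpoly D 0 = 1 * (X ^ 1 - 1) ^ (D + 1) := by simp [Lpoly]
  rw [← e, h2, pow_succ, mul_one] at h1
  linarith

end Vale.Agent.P057.Cascade
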