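import Vale.Agent.P057.CascadeAssembly
import Vale.Agent.P057.CascadeNorm

/-!
# P057: the cascade constant beats `n 2^((n-1)/2) (log 2)^(1-1/n)`, and the progression bound
-/

namespace Vale.Agent.P057.Cascade

open Finset

/-- The cascade constant. -/
noncomputable def cascadeC (n k : ℕ) : ℝ :=
  (n : ℝ) * (2 ^ (n - 1) * lossProd n k) ^ ((1 : ℝ) / n)

/-- The share of the top level in the old constant. -/
noncomputable def topTheta (n : ℕ) : ℝ :=
  Real.log ((3 : ℝ) * 2 ^ (2 ^ (n - 2) - 2)) / ((2 : ℝ) ^ (n - 2) * Real.log 2)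

lemma log_pos_le_two_pow {D g : ℕ} (hD : 1 ≤ D) (h : g = 0 ∨ g + 1 ≤ D) :
    Real.log (pos (Lpoly D g) : ℝ) ≤ D * Real.log 2 := by
  have h2 : pos (Lpoly D g) ≤ 2 ^ D := by
    rcases Nat.eq_zero_or_pos g with rfl | hg
    · exact pos_Lpoly_zero D
    · have := pos_Lpoly_le (D := D) hg (by omega)
      have : (0 : ℤ) < 2 ^ D := by positivity
      omega
  have := two_le_pos_Lpoly (g := g) hD
  rw [← Real.log_pow]
  refine Real.log_le_log (by exact_mod_cast (show (0 : ℤ) < _ by omega)) ?_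
  exact_mod_cast h2

lemma log_pos_top_le {a g : ℕ} (ha : 2 ≤ a) (hg : 1 ≤ g) (hga : g + 1 ≤ a) :
    Real.log (pos (Lpoly a g) : ℝ) ≤ Real.log ((3 : ℝ) * 2 ^ (a - 2)) := by
  have h := pos_Lpoly_le hg hga
  have := two_le_pos_Lpoly (g := g) (show 1 ≤ a by omega)
  refine Real.log_le_log (by exact_mod_cast (show (0 : ℤ) < _ by omega)) ?_
  obtain ⟨b, rfl⟩ : ∃ b, a = b + 2 := ⟨a - 2, by omega⟩
  rw [pow_add] at h
  have h' : pos (Lpoly (b + 2) g) ≤ 3 * 2 ^ b := by omega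
  simp only [Nat.add_sub_cancel]
  exact_mod_cast h'

lemma topTheta_lt_one {n : ℕ} (hn : 3 ≤ n) : 0 < topTheta n ∧ topTheta n < 1 := by
  have hl : 0 < Real.log 2 := Real.log_pos (by norm_num)
  obtain ⟨b, hb⟩ : ∃ b, 2 ^ (n - 2) = b + 2 :=
    ⟨2 ^ (n - 2) - 2, by
      have := Nat.le_self_pow (show n - 2 ≠ 0 by omega) 2
      omega⟩
  have hbr : (2 : ℝ) ^ (n - 2) = ((b + 2 : ℕ) : ℝ) := by
    rw [← hb]; push_cast; ring
  have h1 : (1 : ℝ) ≤ 2 ^ b := one_le_pow₀ (by norm_num)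
  unfold topTheta
  rw [hbr, hb, Nat.add_sub_cancel]
  constructor
  · exact div_pos (Real.log_pos (by linarith)) (by positivity)
  · rw [div_lt_one (by positivity), ← Real.log_pow]
    refine Real.log_lt_log (by positivity) ?_
    rw [pow_add]
    linarith

lemma cascadeC_le {n k : ℕ} (hn : 3 ≤ n) (hk1 : 3 * 2 ^ (n - 2) + 2 ≤ k) (hk2 : k ≤ 2 ^ n) :
    cascadeC n k ≤ (n : ℝ) * 2 ^ (((n : ℝ) - 1) / 2) * Real.log 2 ^ (1 - 1 / (n : ℝ)) *
      topTheta n ^ (1 / (n : ℝ)) := by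
  have hl : 0 < Real.log 2 := Real.log_pos (by norm_num)
  have hpow : 2 ^ n = 4 * 2 ^ (n - 2) := by
    rw [show 4 = 2 ^ 2 by norm_num, ← pow_add]; congr 1; omega
  obtain ⟨θ0, -⟩ := topTheta_lt_one hn
  have hn0 : (0 : ℝ) < n := by exact_mod_cast (show 0 < n by omega)
  have hone : ∀ i, 0 ≤ Real.log (pos (Lpoly (2 ^ i) (gLevel n k (2 ^ i))) : ℝ) := fun i =>
    Real.log_nonneg (by exact_mod_cast one_le_pos_Lpoly _ _)
  have hL : lossProd n k ≤
      (∏ i ∈ range (n - 1), (2 : ℝ) ^ i * Real.log 2) * topTheta n := by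
    obtain ⟨m, hm⟩ : ∃ m, n - 1 = m + 1 := ⟨n - 2, by omega⟩
    have hm2 : n - 2 = m := by omega
    rw [lossProd, hm, prod_range_succ, prod_range_succ, mul_assoc]
    refine mul_le_mul (prod_le_prod (fun i _ => hone i) fun i hi => ?_) ?_ (hone m)
      (prod_nonneg fun i _ => by positivity)
    · have hi' := mem_range.1 hi
      have := log_pos_le_two_pow (D := 2 ^ i) (g := gLevel n k (2 ^ i)) Nat.one_le_two_pow
        (by unfold gLevel; omega)
      simpa using this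
    · have hm1 : 2 ≤ 2 ^ m := Nat.le_self_pow (by omega) 2
      have := log_pos_top_le (g := gLevel n k (2 ^ m)) hm1
        (by unfold gLevel; rw [hm2] at hk1 hpow ⊢; omega) (by unfold gLevel; rw [hm2] at hk1 hpow ⊢; omega)
      refine this.trans_eq ?_
      unfold topTheta
      rw [hm2]
      field_simp
  have key : (2 : ℝ) ^ (n - 1) * ∏ i ∈ range (n - 1), (2 : ℝ) ^ i * Real.log 2 =
      2 ^ ((n : ℝ) * ((n : ℝ) - 1) / 2) * Real.log 2 ^ ((n : ℝ) - 1) := by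
    have e : (2 : ℝ) ^ (n - 1) * ∏ i ∈ range (n - 1), (2 : ℝ) ^ i =
        2 ^ ((n : ℝ) * ((n : ℝ) - 1) / 2) := by
      obtain ⟨m, rfl⟩ : ∃ m, n = m + 1 := ⟨n - 1, by omega⟩
      rw [Nat.add_sub_cancel, mul_comm, ← prod_range_succ (fun i => (2 : ℝ) ^ i),
        prod_pow_eq_pow_sum, ← Real.rpow_natCast]
      congr 1
      have := congrArg (fun x : ℕ => (x : ℝ)) (sum_range_id_mul_two (m + 1))
      push_cast at this ⊢
      linarith
    rw [prod_mul_distrib, prod_const, card_range, ← mul_assoc, e, ← Real.rpow_natCast _ (n - 1),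
      Nat.cast_sub (by omega)]
    norm_num
  have h2 : (2 : ℝ) ^ (((n : ℝ) - 1) / 2) =
      (2 ^ ((n : ℝ) * ((n : ℝ) - 1) / 2)) ^ (1 / (n : ℝ)) := by
    rw [← Real.rpow_mul (by norm_num)]
    congr 1
    field_simp
  have h3 : Real.log 2 ^ (1 - 1 / (n : ℝ)) = (Real.log 2 ^ ((n : ℝ) - 1)) ^ (1 / (n : ℝ)) := by
    rw [← Real.rpow_mul hl.le]
    congr 1
    field_simp
  rw [cascadeC, mul_assoc (n : ℝ), mul_assoc (n : ℝ), h2, h3,
    ← Real.mul_rpow (by positivity) (by positivity), ← Real.mul_rpow (by positivity) θ0.le]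
  refine mul_le_mul_of_nonneg_left ?_ hn0.le
  refine Real.rpow_le_rpow (mul_nonneg (by positivity) (prod_nonneg fun i _ => hone i)) ?_
    (by positivity)
  calc (2 : ℝ) ^ (n - 1) * lossProd n k
      ≤ (2 : ℝ) ^ (n - 1) * ((∏ i ∈ range (n - 1), (2 : ℝ) ^ i * Real.log 2) * topTheta n) :=
        mul_le_mul_of_nonneg_left hL (by positivity)
    _ = _ := by rw [← mul_assoc, key]

/-- The bound for progressions in `[1, N]`. -/
theorem progression_bound {n k : ℕ} (hn : 3 ≤ n) (hk1 : 3 * 2 ^ (n - 2) + 2 ≤ k)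
    (hk2 : k ≤ 2 ^ n) {ε : ℝ} (hε : 0 < ε) :
    ∃ N₀ : ℕ, ∀ N : ℕ, N₀ ≤ N → ∃ A : Finset ℕ, A ⊆ Finset.Icc 1 N ∧
      (∀ a d : ℕ, 0 < d → ∃ i < k, a + i * d ∉ A) ∧
      (N : ℝ) * Real.exp (-((cascadeC n k + ε) * Real.log N ^ (1 / (n : ℝ)))) ≤ A.card := by
  obtain ⟨N₀, hN⟩ := good_cascade hn hk1 hk2 ε hε
  refine ⟨N₀, fun N hle => ?_⟩
  obtain ⟨A₀, hA, hfree, hc⟩ := hN N hle
  refine ⟨A₀.image fun a => (a + 1).toNat, ?_, ?_, ?_⟩
  · intro b hb
    obtain ⟨a, ha, rfl⟩ := Finset.mem_image.1 hb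
    have := hA a ha
    rw [Finset.mem_Icc]
    omega
  · intro a d hd
    by_contra hall
    push Not at hall
    have hmem : ∀ i < k, (a : ℤ) - 1 + (i : ℤ) * d ∈ A₀ := by
      intro i hi
      obtain ⟨b, hb, e⟩ := Finset.mem_image.1 (hall i hi)
      have := hA b hb
      have : (a : ℤ) - 1 + (i : ℤ) * d = b := by
        have := congrArg (fun z : ℕ => (z : ℤ)) e
        push_cast at this
        omega
      rwa [this]
    have := Nat.one_le_two_pow (n := n - 2)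
    have h := no_ap_of_free (by omega) hfree _ _ hmem
    omega
  · rw [Finset.card_image_of_injOn]
    · exact hc
    · intro a ha b hb e
      have := hA a ha
      have := hA b hb
      simp only at e
      omega

end Vale.Agent.P057.Cascade
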