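import Vale.Agent.P057.DigitCore

/-!
# P057: the cascade, combinatorial core

Sequences `j ↦ F(j) + (-1)^j G(j)` with `deg F ≤ D`, `deg G < g`, the integer operator
`(X-1)^(D+1) (X+1)^g` annihilating them, and rigidity of their sums of squares.
-/

namespace Vale.Agent.P057.Cascade

open Finset Polynomial Vale.Agent.P057

/-- Sign sequence. -/
def sg (j : ℕ) : ℚ := (-1) ^ j

lemma sg_mul_self (j : ℕ) : sg j * sg j = 1 := by
  rw [sg, ← mul_pow]; simp

/-- The window `p 0, …, p (k-1)` is the restriction of some `F(j) + (-1)^j G(j)`. -/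
def InS (D g k : ℕ) (p : ℕ → ℤ) : Prop :=
  ∃ F ∈ degreeLT ℚ (D + 1), ∃ G ∈ degreeLT ℚ g,
    ∀ j < k, (p j : ℚ) = F.eval (j : ℚ) + sg j * G.eval (j : ℚ)

/-- Every such window inside `A` is `2`-periodic. -/
def Free (D g k : ℕ) (A : Finset ℤ) : Prop :=
  ∀ p : ℕ → ℤ, (∀ j < k, p j ∈ A) → InS D g k p → ∀ j, j + 2 < k → p (j + 2) = p j

lemma natDegree_le_of_mem {n : ℕ} {F : ℚ[X]} (h : F ∈ degreeLT ℚ n) : F.natDegree ≤ n - 1 := by
  rw [mem_degreeLT] at h
  by_cases hF : F = 0
  · simp [hF]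
  · have := (natDegree_lt_iff_degree_lt hF).2 h
    omega

lemma mem_of_natDegree_lt {n : ℕ} {F : ℚ[X]} (h : F.natDegree < n) : F ∈ degreeLT ℚ n := by
  rw [mem_degreeLT]
  exact degree_le_natDegree.trans_lt (by exact_mod_cast h)

lemma eq_zero_of_mem_zero {F : ℚ[X]} (h : F ∈ degreeLT ℚ 0) : F = 0 := by
  rw [mem_degreeLT, Nat.cast_zero, Nat.WithBot.lt_zero_iff, degree_eq_bot] at h
  exact h

/-- A polynomial of degree `< n` vanishing at `0, …, n-1` is zero. -/
lemma eq_zero_of_roots {n k : ℕ} (hk : n ≤ k) {F : ℚ[X]} (hF : F ∈ degreeLT ℚ n)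
    (h : ∀ j < k, F.eval (j : ℚ) = 0) : F = 0 := by
  refine eq_zero_of_degree_lt_of_eval_index_eq_zero (f := F) (range n)
    (fun a _ b _ hab => Nat.cast_injective hab) ?_ fun i hi => h i (by simp at hi; omega)
  simpa [mem_degreeLT] using hF

/-- Translation. -/
noncomputable def shift (c : ℚ) (F : ℚ[X]) : ℚ[X] := F.comp (X + C c)

lemma eval_shift (c : ℚ) (F : ℚ[X]) (x : ℚ) : (shift c F).eval x = F.eval (x + c) := by
  simp [shift]

lemma natDegree_shift (c : ℚ) (F : ℚ[X]) : (shift c F).natDegree = F.natDegree := by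
  rw [shift, natDegree_comp, natDegree_X_add_C, mul_one]

lemma leadingCoeff_shift (c : ℚ) (F : ℚ[X]) : (shift c F).leadingCoeff = F.leadingCoeff := by
  rw [shift, leadingCoeff_comp (by simp), leadingCoeff_X_add_C, one_pow, mul_one]

lemma shift_sub_mem {n : ℕ} (c : ℚ) {F : ℚ[X]} (hF : F ∈ degreeLT ℚ (n + 1)) :
    shift c F - F ∈ degreeLT ℚ n := by
  rw [mem_degreeLT] at hF ⊢
  by_cases h0 : F = 0
  · simp [h0, shift]
  have h1 : (shift c F).degree = F.degree := by
    have : shift c F ≠ 0 := fun h => by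
      have := leadingCoeff_shift c F
      rw [h, leadingCoeff_zero] at this
      exact h0 (leadingCoeff_eq_zero.1 this.symm)
    rw [degree_eq_natDegree this, degree_eq_natDegree h0, natDegree_shift]
  have h2 := degree_sub_lt_left h1 (by
    intro h
    rw [h, degree_zero] at h1
    exact h0 (degree_eq_bot.1 h1.symm)) (leadingCoeff_shift c F)
  rw [h1] at h2
  rw [degree_eq_natDegree h0] at h2 hF
  refine h2.trans_le ?_
  have : F.natDegree ≤ n := by exact_mod_cast Nat.lt_succ_iff.1 (by exact_mod_cast hF)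
  exact_mod_cast this

/-- The representation is unique on long windows. -/
lemma rep_unique : ∀ {D g k : ℕ}, D + g ≤ k → ∀ {F G : ℚ[X]}, F ∈ degreeLT ℚ D →
    G ∈ degreeLT ℚ g → (∀ j < k, F.eval (j : ℚ) + sg j * G.eval (j : ℚ) = 0) → F = 0 ∧ G = 0 := by
  intro D
  induction D with
  | zero =>
    intro g k hk F G hF hG h
    have hF0 := eq_zero_of_mem_zero hF
    refine ⟨hF0, eq_zero_of_roots (by omega : g ≤ k) hG fun j hj => ?_⟩
    have := h j hj
    simp [hF0, sg] at this
    exact this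
  | succ D ih =>
    intro g k hk F G hF hG h
    obtain ⟨k, rfl⟩ : ∃ m, k = m + 1 := ⟨k - 1, by omega⟩
    have hG' : shift 1 G + G ∈ degreeLT ℚ g := by
      refine add_mem ?_ hG
      by_cases h0 : G = 0
      · simp [h0, shift]
      rw [mem_degreeLT] at hG ⊢
      rw [← natDegree_lt_iff_degree_lt h0] at hG
      exact degree_le_natDegree.trans_lt (by rw [natDegree_shift]; exact_mod_cast hG)
    obtain ⟨-, hz⟩ := ih (by omega : D + g ≤ k) (shift_sub_mem 1 hF) (neg_mem hG') (by
      intro j hj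
      have a := h j (by omega)
      have b := h (j + 1) (by omega)
      simp only [sg, pow_succ, Nat.cast_add, Nat.cast_one] at a b ⊢
      simp only [eval_sub, eval_neg, eval_add, eval_shift]
      linarith)
    have hG0 : G = 0 := by
      by_contra h0
      have e : shift 1 G = -G := eq_neg_of_add_eq_zero_left (neg_eq_zero.1 hz)
      have := leadingCoeff_shift 1 G
      rw [e, leadingCoeff_neg] at this
      exact h0 (leadingCoeff_eq_zero.1 (by linarith))
    refine ⟨eq_zero_of_roots (by omega : D + 1 ≤ k + 1) hF fun j hj => ?_, hG0⟩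
    simpa [hG0] using h j hj

/-- The operator. -/
noncomputable def Lpoly (D g : ℕ) : ℤ[X] := (X - 1) ^ (D + 1) * (X + 1) ^ g

lemma Lpoly_monic (D g : ℕ) : (Lpoly D g).Monic := by
  refine Monic.mul (Monic.pow ?_ _) (Monic.pow ?_ _)
  · simpa using monic_X_sub_C (1 : ℤ)
  · simpa using monic_X_add_C (1 : ℤ)

lemma Lpoly_natDegree (D g : ℕ) : (Lpoly D g).natDegree = D + 1 + g := by
  have h1 : (X - 1 : ℤ[X]).Monic := by simpa using monic_X_sub_C (1 : ℤ)
  have h2 : (X + 1 : ℤ[X]).Monic := by simpa using monic_X_add_C (1 : ℤ)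
  rw [Lpoly, (h1.pow _).natDegree_mul (h2.pow _), h1.natDegree_pow, h2.natDegree_pow,
    show (X - 1 : ℤ[X]) = X - C 1 by simp, show (X + 1 : ℤ[X]) = X + C 1 by simp,
    natDegree_X_sub_C, natDegree_X_add_C]
  simp

lemma Lpoly_eval_one (D g : ℕ) : (Lpoly D g).eval 1 = 0 := by simp [Lpoly]

/-- Apply an integer operator to a sequence. -/
noncomputable def op {R : Type*} [CommRing R] (L : ℤ[X]) (f : ℕ → R) (j : ℕ) : R :=
  ∑ i ∈ range (L.natDegree + 1), (L.coeff i : R) * f (j + i)

/-- The shift as a linear map. -/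
def Sh : (ℕ → ℚ) →ₗ[ℚ] (ℕ → ℚ) where
  toFun f j := f (j + 1)
  map_add' _ _ := rfl
  map_smul' _ _ := rfl

lemma Sh_pow_apply (i : ℕ) : ∀ (f : ℕ → ℚ) (j : ℕ), (Sh ^ i) f j = f (j + i) := by
  induction i with
  | zero => simp
  | succ i ih =>
    intro f j
    rw [pow_succ, Module.End.mul_apply, ih]
    rfl

lemma aeval_Sh_apply (L : ℤ[X]) (f : ℕ → ℚ) (j : ℕ) : (aeval Sh L) f j = op L f j := by
  rw [aeval_eq_sum_range, op, LinearMap.sum_apply, Finset.sum_apply]
  refine sum_congr rfl fun i _ => ?_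
  rw [LinearMap.smul_apply, Pi.smul_apply, Sh_pow_apply, zsmul_eq_mul]

lemma kills_F : ∀ (n : ℕ) {F : ℚ[X]}, F ∈ degreeLT ℚ n →
    ((Sh - 1) ^ n) (fun j : ℕ => F.eval (j : ℚ)) = 0 := by
  intro n
  induction n with
  | zero => intro F hF; funext j; simp [eq_zero_of_mem_zero hF]
  | succ n ih =>
    intro F hF
    rw [pow_succ, Module.End.mul_apply]
    rw [← ih (shift_sub_mem 1 hF)]
    congr 1
    funext j
    simp [Sh, eval_shift]

lemma kills_G : ∀ (n : ℕ) {G : ℚ[X]}, G ∈ degreeLT ℚ n →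
    ((Sh + 1) ^ n) (fun j : ℕ => sg j * G.eval (j : ℚ)) = 0 := by
  intro n
  induction n with
  | zero => intro F hF; funext j; simp [eq_zero_of_mem_zero hF]
  | succ n ih =>
    intro F hF
    rw [pow_succ, Module.End.mul_apply]
    rw [← ih (neg_mem (shift_sub_mem 1 hF))]
    congr 1
    funext j
    simp [Sh, eval_shift, sg, pow_succ]
    ring

/-- The operator kills every sequence of the class. -/
lemma op_rep_eq_zero {D g : ℕ} {F G : ℚ[X]} (hF : F ∈ degreeLT ℚ (D + 1))
    (hG : G ∈ degreeLT ℚ g) (j : ℕ) :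
    op (Lpoly D g) (fun i => F.eval (i : ℚ) + sg i * G.eval (i : ℚ)) j = 0 := by
  rw [← aeval_Sh_apply]
  have e : aeval Sh (Lpoly D g) = (Sh - 1) ^ (D + 1) * (Sh + 1) ^ g := by
    simp [Lpoly]
  have c : Commute ((Sh - 1) ^ (D + 1)) ((Sh + 1) ^ g) :=
    ((((Commute.refl Sh).add_right (Commute.one_right Sh))).sub_left
      (Commute.one_left _)).pow_pow _ _
  have e1 : (fun i : ℕ => F.eval (i : ℚ) + sg i * G.eval (i : ℚ)) =
      (fun i : ℕ => F.eval (i : ℚ)) + fun i : ℕ => sg i * G.eval (i : ℚ) := rfl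
  rw [e, e1, map_add]
  nth_rw 1 [c.eq]
  rw [Module.End.mul_apply, Module.End.mul_apply, kills_F _ hF, kills_G _ hG]
  simp

/-- A window killed by the operator lies in the class. -/
lemma inS_of_op {D g k : ℕ} {x : ℕ → ℤ}
    (hx : ∀ j, j + (D + 1 + g) < k → op (Lpoly D g) x j = 0) : InS D g k x := by
  set r := D + 1 + g
  let T : (degreeLT ℚ (D + 1) × degreeLT ℚ g) →ₗ[ℚ] (Fin r → ℚ) :=
    { toFun := fun q i => (q.1 : ℚ[X]).eval ((i : ℕ) : ℚ) + sg i * (q.2 : ℚ[X]).eval ((i : ℕ) : ℚ)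
      map_add' := fun q q' => by funext i; simp; ring
      map_smul' := fun c q => by funext i; simp; ring }
  have hinj : Function.Injective T := by
    rw [injective_iff_map_eq_zero]
    intro q hq
    obtain ⟨a, b⟩ := rep_unique (le_refl r) q.1.2 q.2.2 fun j hj => congrFun hq ⟨j, hj⟩
    exact Prod.ext (Subtype.ext a) (Subtype.ext b)
  let e := (degreeLTEquiv ℚ (D + 1)).symm
  let e' := (degreeLTEquiv ℚ g).symm
  have : Module.Finite ℚ (degreeLT ℚ (D + 1)) := Module.Finite.equiv e
  have : Module.Finite ℚ (degreeLT ℚ g) := Module.Finite.equiv e'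
  have hfin : Module.finrank ℚ (degreeLT ℚ (D + 1) × degreeLT ℚ g) =
      Module.finrank ℚ (Fin r → ℚ) := by
    rw [Module.finrank_prod, (degreeLTEquiv ℚ (D + 1)).finrank_eq,
      (degreeLTEquiv ℚ g).finrank_eq]
    simp [r]
  obtain ⟨⟨F, G⟩, hFG⟩ :=
    (LinearMap.injective_iff_surjective_of_finrank_eq_finrank hfin).1 hinj fun i => (x i : ℚ)
  refine ⟨F, F.2, G, G.2, fun j => ?_⟩
  induction j using Nat.strong_induction_on with
  | _ j ih =>
    intro hj
    by_cases hjr : j < r
    · exact (congrFun hFG ⟨j, hjr⟩).symm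
    obtain ⟨i, rfl⟩ : ∃ i, j = i + r := ⟨j - r, by omega⟩
    have h1 := op_rep_eq_zero F.2 G.2 i
    have h2 : ((op (Lpoly D g) x i : ℤ) : ℚ) = 0 := by rw [hx i hj, Int.cast_zero]
    simp only [op, Lpoly_natDegree] at h1 h2
    push_cast at h2
    rw [sum_range_succ] at h1 h2
    have hs : ∑ s ∈ range r, ((Lpoly D g).coeff s : ℚ) * (x (i + s) : ℚ) =
        ∑ s ∈ range r, ((Lpoly D g).coeff s : ℚ) *
          ((F : ℚ[X]).eval ((i + s : ℕ) : ℚ) + sg (i + s) * (G : ℚ[X]).eval ((i + s : ℕ) : ℚ)) :=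
      sum_congr rfl fun s hs => by
        simp only [mem_range] at hs
        rw [ih (i + s) (by omega) (by omega)]
    have hl : (Lpoly D g).coeff r = 1 := by
      have := (Lpoly_monic D g).leadingCoeff
      rwa [leadingCoeff, Lpoly_natDegree] at this
    rw [hl, Int.cast_one, one_mul] at h1 h2
    linarith

lemma op_eq_zero_of_inS {D g k : ℕ} {p : ℕ → ℤ} (hp : InS D g k p) {j : ℕ}
    (hj : j + (D + 1 + g) < k) : op (Lpoly D g) p j = 0 := by
  obtain ⟨F, hF, G, hG, h⟩ := hp
  rw [← Int.cast_inj (α := ℚ), Int.cast_zero, ← op_rep_eq_zero hF hG j]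
  simp only [op, Lpoly_natDegree]
  push_cast
  refine sum_congr rfl fun s hs => ?_
  simp only [mem_range] at hs
  rw [h (j + s) (by omega)]
  push_cast
  ring

lemma op_code {d : ℕ} (L : ℤ[X]) (B : ℤ) (x : ℕ → Fin d → ℤ) (j : ℕ) :
    op L (fun i => code B (x i)) j = code B fun t => op L (fun i => x i t) j := by
  simp only [op, code, Finset.mul_sum, Finset.sum_mul, Int.cast_id]
  rw [Finset.sum_comm]
  simp [mul_assoc]

/-- The sum of the positive coefficients. -/
noncomputable def pos (L : ℤ[X]) : ℤ := ∑ i ∈ range (L.natDegree + 1), max (L.coeff i) 0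

lemma one_le_pos_Lpoly (D g : ℕ) : 1 ≤ pos (Lpoly D g) := by
  have h := single_le_sum (s := range ((Lpoly D g).natDegree + 1))
    (f := fun i => max ((Lpoly D g).coeff i) 0) (fun i _ => le_max_right _ _)
    (self_mem_range_succ (Lpoly D g).natDegree)
  have hl : (Lpoly D g).coeff (Lpoly D g).natDegree = 1 := (Lpoly_monic D g).leadingCoeff
  simp only [hl] at h
  exact le_trans (le_max_left _ _) h

lemma abs_op_lt {L : ℤ[X]} (h1 : L.eval 1 = 0) (hP : 1 ≤ pos L) {m : ℤ} {x : ℕ → ℤ} {j : ℕ}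
    (hx : ∀ i ≤ L.natDegree, 0 ≤ x (j + i) ∧ x (j + i) < m) : |op L x j| < pos L * m := by
  have hsum : ∑ i ∈ range (L.natDegree + 1), L.coeff i = 0 := by
    rw [eval_eq_sum_range] at h1
    simpa using h1
  have hneg : ∑ i ∈ range (L.natDegree + 1), min (L.coeff i) 0 = -pos L := by
    rw [pos, eq_neg_iff_add_eq_zero, ← sum_add_distrib]
    simpa [min_add_max] using hsum
  have up : op L x j ≤ pos L * (m - 1) := by
    rw [op, pos, sum_mul]
    refine sum_le_sum fun i hi => ?_
    have hb := hx i (Nat.lt_succ_iff.1 (mem_range.1 hi))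
    rw [Int.cast_id]
    rcases le_total (L.coeff i) 0 with hc | hc
    · rw [max_eq_right hc]; nlinarith
    · rw [max_eq_left hc]; nlinarith
  have lo : -(pos L) * (m - 1) ≤ op L x j := by
    rw [op, ← hneg, sum_mul]
    refine sum_le_sum fun i hi => ?_
    have hb := hx i (Nat.lt_succ_iff.1 (mem_range.1 hi))
    rw [Int.cast_id]
    rcases le_total (L.coeff i) 0 with hc | hc
    · rw [min_eq_left hc]; nlinarith
    · rw [min_eq_right hc]; nlinarith
  rw [abs_lt]
  constructor <;> nlinarith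

/-- A polynomial with period `2` is constant. -/
lemma natDegree_zero_of_shift_two {F : ℚ[X]} (h : shift 2 F = F) : F.natDegree = 0 := by
  have hn : ∀ n : ℕ, (F - C (F.eval 0)).eval ((2 * n : ℕ) : ℚ) = 0 := by
    intro n
    induction n with
    | zero => simp
    | succ n ih =>
      have := congrArg (fun P : ℚ[X] => P.eval ((2 * n : ℕ) : ℚ)) h
      simp only [eval_shift] at this
      simp only [eval_sub, eval_C] at ih ⊢
      have e : ((2 * (n + 1) : ℕ) : ℚ) = ((2 * n : ℕ) : ℚ) + 2 := by push_cast; ring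
      rw [e, this]
      exact ih
  have : F - C (F.eval 0) = 0 := eq_zero_of_infinite_isRoot _ <| by
    refine Set.Infinite.mono (fun a ha => ?_)
      (Set.infinite_range_of_injective (f := fun n : ℕ => ((2 * n : ℕ) : ℚ)) ?_)
    · obtain ⟨n, rfl⟩ := ha
      exact hn n
    · intro a b hab
      have : 2 * a = 2 * b := Nat.cast_injective hab
      omega
  rw [sub_eq_zero] at this
  rw [this, natDegree_C]

/-- Codes of digit vectors with squared norm in a translate of a free set form a free set. -/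
theorem free_code {d : ℕ} {D g gn k : ℕ} (hD : 1 ≤ D) (hgn : g = 0 ∨ D + g ≤ gn)
    (hk : 3 * D + g + 1 ≤ k) (hg : g ≤ D) {m τ : ℤ} {A' A : Finset ℤ}
    (hA' : Free (2 * D) gn k A')
    (hA : ∀ v ∈ A, ∃ x : Fin d → ℤ, (∀ t, 0 ≤ x t ∧ x t < m) ∧ (∑ t, x t ^ 2) + τ ∈ A' ∧
      v = code (pos (Lpoly D g) * m) x) : Free D g k A := by
  intro p hp hS
  set L := Lpoly D g with hL
  set B := pos L * m with hB
  choose! w hw using fun j (hj : j < k) => hA (p j) (hp j hj)
  have hcl : ∀ t, InS D g k fun i => w i t := by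
    refine fun t => inS_of_op fun j hj => ?_
    have h0 : code B (fun t => op L (fun i => w i t) j) = 0 := by
      rw [← op_code, ← op_eq_zero_of_inS hS hj]
      simp only [op, hL, Lpoly_natDegree]
      refine sum_congr rfl fun s hs => ?_
      simp only [mem_range] at hs
      rw [(hw (j + s) (by omega)).2.2]
    refine digits_zero (fun t => abs_op_lt (Lpoly_eval_one D g) (one_le_pos_Lpoly D g)
      fun i hi => ?_) h0 t
    rw [Lpoly_natDegree] at hi
    exact (hw (j + i) (by omega)).1 t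
  choose F hF G hG hFG using hcl
  set F2 : ℚ[X] := ∑ t, (F t ^ 2 + G t ^ 2) + C (τ : ℚ) with hF2
  set G2 : ℚ[X] := C (2 : ℚ) * ∑ t, F t * G t with hG2
  have hF2m : F2 ∈ degreeLT ℚ (2 * D + 1) := by
    refine add_mem (sum_mem fun t _ => add_mem ?_ ?_) (mem_of_natDegree_lt (by simp))
    · have := natDegree_le_of_mem (hF t)
      exact mem_of_natDegree_lt (natDegree_pow_le.trans_lt (by omega))
    · have := natDegree_le_of_mem (hG t)
      exact mem_of_natDegree_lt (natDegree_pow_le.trans_lt (by omega))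
  have hG2m : ∀ n, (g = 0 ∨ D + g ≤ n) → G2 ∈ degreeLT ℚ n := by
    intro n hn
    rw [hG2, Finset.mul_sum]
    refine sum_mem fun t _ => ?_
    rw [← smul_eq_C_mul]
    refine Submodule.smul_mem _ _ ?_
    rcases hn with hn | hn
    · have := hG t
      rw [hn] at this
      rw [eq_zero_of_mem_zero this, mul_zero]
      exact zero_mem _
    · rcases Nat.eq_zero_or_pos g with h0 | h0
      · have := hG t
        rw [h0] at this
        rw [eq_zero_of_mem_zero this, mul_zero]
        exact zero_mem _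
      have a := natDegree_le_of_mem (hF t)
      have b := natDegree_le_of_mem (hG t)
      exact mem_of_natDegree_lt (natDegree_mul_le.trans_lt (by omega))
  set v : ℕ → ℤ := fun i => (∑ t, w i t ^ 2) + τ with hv
  have hvr : ∀ j < k, (v j : ℚ) = F2.eval (j : ℚ) + sg j * G2.eval (j : ℚ) := by
    intro j hj
    have hs := sg_mul_self j
    simp only [hv, hF2, hG2]
    push_cast
    simp only [eval_add, eval_finsetSum, eval_pow, eval_mul, eval_C,
      Finset.mul_sum, hFG _ j hj]
    rw [add_right_comm _ (τ : ℚ), ← sum_add_distrib]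
    congr 1
    refine sum_congr rfl fun t _ => ?_
    linear_combination (G t).eval (j : ℚ) ^ 2 * hs
  have hper := hA' v (fun j hj => (hw j hj).2.1)
    ⟨F2, hF2m, G2, hG2m gn hgn, hvr⟩
  obtain ⟨hz, -⟩ := rep_unique (D := 2 * D) (g := D + g - 1) (k := k - 2) (by omega)
    (shift_sub_mem 2 hF2m)
    (shift_sub_mem 2 (hG2m (D + g - 1 + 1) (.inr (by omega)))) (by
      intro j hj
      have a := hvr j (by omega)
      have b := hvr (j + 2) (by omega)
      have c : (v (j + 2) : ℚ) = v j := by rw [hper j (by omega)]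
      simp only [sg, pow_add, neg_one_sq, mul_one, Nat.cast_add, Nat.cast_ofNat] at a b ⊢
      simp only [eval_sub, eval_shift]
      linarith)
  obtain ⟨e, he⟩ := natDegree_eq_zero.1 (natDegree_zero_of_shift_two (sub_eq_zero.1 hz))
  have hsq : ∑ s : Fin d ⊕ Fin d, Sum.elim F G s ^ 2 = C (e - (τ : ℚ)) := by
    simp only [Fintype.sum_sum_type, Sum.elim_inl, Sum.elim_inr, ← sum_add_distrib, C_sub, he,
      hF2, add_sub_cancel_right]
  have hc := natDegree_eq_zero_of_sum_sq hsq
  intro j hj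
  have hx : w (j + 2) = w j := by
    funext t
    obtain ⟨a, ha⟩ := natDegree_eq_zero.1 (hc (.inl t))
    obtain ⟨b, hb⟩ := natDegree_eq_zero.1 (hc (.inr t))
    simp only [Sum.elim_inl, Sum.elim_inr] at ha hb
    have h1 := hFG t j (by omega)
    have h2 := hFG t (j + 2) hj
    simp only [← ha, ← hb, eval_C, sg, pow_add, neg_one_sq, mul_one] at h1 h2
    exact_mod_cast h2.trans h1.symm
  rw [(hw j (by omega)).2.2, (hw (j + 2) hj).2.2, hx]

/-- A singleton is free. -/
lemma free_singleton (D g k : ℕ) (a : ℤ) : Free D g k {a} := by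
  intro p hp _ j hj
  rw [mem_singleton.1 (hp (j + 2) hj), mem_singleton.1 (hp j (by omega))]

lemma Free.mono {D g g' k : ℕ} {A : Finset ℤ} (h : g ≤ g') (hA : Free D g' k A) :
    Free D g k A := by
  intro p hp ⟨F, hF, G, hG, hr⟩
  exact hA p hp ⟨F, hF, G, degreeLT_mono h hG, hr⟩

/-- The bottom of the cascade is free of arithmetic progressions. -/
lemma no_ap_of_free {k : ℕ} (hk : 3 ≤ k) {A : Finset ℤ} (hA : Free 1 0 k A) (a d : ℤ)
    (h : ∀ i < k, a + (i : ℤ) * d ∈ A) : d = 0 := by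
  have := hA (fun i => a + (i : ℤ) * d) h
    ⟨C (d : ℚ) * X + C (a : ℚ), mem_of_natDegree_lt (natDegree_linear_le.trans_lt (by omega)),
      0, zero_mem _, fun i _ => by simp; ring⟩ 0 (by omega)
  push_cast at this
  linarith

end Vale.Agent.P057.Cascade
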