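import Mathlib

/-!
# P057: free sets and asymptotic lower bounds
-/

namespace Vale.Agent.P057

open Finset

/-- Every `k`-term sequence in `A` with vanishing differences of order `D + 1` is constant. -/
def Free (D k : ℕ) (A : Finset ℤ) : Prop :=
  ∀ p : ℕ → ℤ, (∀ j < k, p j ∈ A) → (∀ j, j + D + 1 < k → (fwdDiff 1)^[D + 1] p j = 0) →
    ∀ j < k, p j = p 0

/-- Free subsets of `[0, N)` of size `N exp (-(C + ε) (log N) ^ (1 / q))` exist. -/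
def Good (D k q : ℕ) (C : ℝ) : Prop :=
  ∀ ε : ℝ, 0 < ε → ∃ N₀ : ℕ, ∀ N : ℕ, N₀ ≤ N → ∃ A : Finset ℤ,
    (∀ a ∈ A, 0 ≤ a ∧ a < (N : ℤ)) ∧ Free D k A ∧
    (N : ℝ) * Real.exp (-((C + ε) * Real.log N ^ ((1 : ℝ) / q))) ≤ A.card

lemma good_of_forall {D k q : ℕ} {C : ℝ} (h : ∀ η : ℝ, 0 < η → Good D k q (C + η)) :
    Good D k q C := by
  intro ε hε
  obtain ⟨N₀, hN⟩ := h (ε / 2) (by linarith) (ε / 2) (by linarith)
  refine ⟨N₀, fun N hle => ?_⟩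
  obtain ⟨A, hA, hfree, hc⟩ := hN N hle
  exact ⟨A, hA, hfree, by rwa [show C + ε = C + ε / 2 + ε / 2 by ring]⟩

lemma good_congr {D k q : ℕ} {C C' : ℝ} (e : C = C') (h : Good D k q C) : Good D k q C' := e ▸ h

end Vale.Agent.P057
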