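import Mathlib

/-!
# P057: the digit step, combinatorial core
-/

namespace Vale.Agent.P057

open Finset Polynomial
open Function

/-- Sequences of small degree on a window come from polynomials. -/
lemma exists_poly {D k : ℕ} {f : ℕ → ℤ}
    (hf : ∀ j, j + D + 1 < k → (fwdDiff 1)^[D + 1] f j = 0) :
    ∃ P : ℚ[X], P.natDegree ≤ D ∧ ∀ n < k, P.eval (n : ℚ) = (f n : ℚ) := by
  refine ⟨∑ i ∈ range (D + 1), C (((fwdDiff 1)^[i] f 0 : ℤ) / (i.factorial : ℚ)) * descPochhammer ℚ i,
    natDegree_sum_le_of_forall_le _ _ fun i hi => ?_, fun n hn => ?_⟩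
  · refine (natDegree_C_mul_le _ _).trans ?_
    rw [descPochhammer_natDegree]
    exact Nat.lt_succ_iff.1 (mem_range.1 hi)
  · have hzero : ∀ i, D < i → i ≤ n → (fwdDiff 1)^[i] f 0 = 0 := by
      intro i hi hin
      obtain ⟨r, rfl⟩ : ∃ r, i = r + (D + 1) := ⟨i - (D + 1), by omega⟩
      rw [Function.iterate_add_apply, fwdDiff_iter_eq_sum_shift]
      refine sum_eq_zero fun s hs => ?_
      rw [hf (0 + s • 1) (by simp only [mem_range] at hs; simp; omega), smul_zero]
    have h := shift_eq_sum_fwdDiff_iter 1 f n 0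
    simp only [zero_add, smul_eq_mul, mul_one] at h
    rw [eval_finsetSum, h, Int.cast_sum]
    have e : ∀ i, (C (((fwdDiff 1)^[i] f 0 : ℤ) / (i.factorial : ℚ)) * descPochhammer ℚ i).eval (n : ℚ) =
        ((n.choose i • (fwdDiff 1)^[i] f 0 : ℤ) : ℚ) := by
      intro i
      rw [eval_mul, eval_C, nsmul_eq_mul, Int.cast_mul, Int.cast_natCast,
        Nat.cast_choose_eq_descPochhammer_div]
      ring
    simp only [e]
    rcases le_total (D + 1) (n + 1) with hle | hle
    · refine sum_subset (range_subset_range.2 hle) fun i hi hi' => ?_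
      simp only [mem_range] at hi hi'
      rw [hzero i (by omega) (by omega)]
      simp
    · refine (sum_subset (range_subset_range.2 hle) fun i hi hi' => ?_).symm
      simp only [mem_range] at hi hi'
      rw [Nat.choose_eq_zero_of_lt (by omega)]
      simp

/-- The degree of a sum of squares of rational polynomials. -/
lemma natDegree_eq_zero_of_sum_sq {ι : Type*} [Fintype ι] {P : ι → ℚ[X]} {e : ℚ}
    (h : ∑ t, P t ^ 2 = C e) : ∀ t, (P t).natDegree = 0 := by
  by_contra hne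
  push Not at hne
  obtain ⟨t0, ht0⟩ := hne
  obtain ⟨t1, -, ht1⟩ := exists_max_image univ (fun t => (P t).natDegree) ⟨t0, mem_univ _⟩
  have hpos : 0 < (P t1).natDegree :=
    lt_of_lt_of_le (Nat.pos_of_ne_zero ht0) (ht1 t0 (mem_univ _))
  set E := (P t1).natDegree with hE
  have hc := congrArg (fun Q => Q.coeff (2 * E)) h
  simp only [finsetSum_coeff, coeff_C, show 2 * E ≠ 0 by omega, if_false] at hc
  simp only [coeff_pow_of_natDegree_le (ht1 _ (mem_univ _))] at hc
  have h1 : (P t1).coeff E = 0 := by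
    have := (sum_eq_zero_iff_of_nonneg fun t _ => sq_nonneg ((P t).coeff E)).1 hc t1 (mem_univ _)
    exact pow_eq_zero_iff two_ne_zero |>.1 this
  have h2 : P t1 ≠ 0 := fun e0 => by simp [hE, e0] at hpos
  exact leadingCoeff_ne_zero.2 h2 h1

/-- Sum-of-squares rigidity on a window. -/
lemma const_of_sum_sq {ι : Type*} [Fintype ι] {D k : ℕ} (hk : 2 * D + 1 ≤ k) {x : ι → ℕ → ℤ}
    (hx : ∀ t j, j + D + 1 < k → (fwdDiff 1)^[D + 1] (x t) j = 0) {e : ℤ}
    (hsq : ∀ j < k, ∑ t, x t j ^ 2 = e) : ∀ t, ∀ j < k, x t j = x t 0 := by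
  choose P hPd hP using fun t => exists_poly (hx t)
  have hS : ∑ t, P t ^ 2 = C (e : ℚ) := by
    refine eq_of_natDegree_lt_card_of_eval_eq _ _
      (f := fun i : Fin k => (i.1 : ℚ)) (fun a b hab => Fin.ext (by simpa using hab))
      (fun i => ?_) ?_
    · simp only [eval_finsetSum, eval_pow, eval_C, hP _ _ i.2]
      exact_mod_cast hsq i i.2
    · have : (∑ t, P t ^ 2).natDegree ≤ 2 * D := natDegree_sum_le_of_forall_le _ _ fun t _ =>
        natDegree_pow_le.trans (Nat.mul_le_mul_left 2 (hPd t))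
      simp only [natDegree_C, Fintype.card_fin]
      omega
  intro t j hj
  obtain ⟨c, hc⟩ := natDegree_eq_zero.1 (natDegree_eq_zero_of_sum_sq hS t)
  have h1 := hP t j hj
  have h2 := hP t 0 (by omega)
  rw [← hc, eval_C] at h1 h2
  exact_mod_cast h1.symm.trans h2

/-- Second difference orders of a sum of squares. -/
lemma fwdDiff_sum_sq_eq_zero {ι : Type*} [Fintype ι] {D k : ℕ} {x : ι → ℕ → ℤ}
    (hx : ∀ t j, j + D + 1 < k → (fwdDiff 1)^[D + 1] (x t) j = 0) (τ : ℤ) :
    ∀ j, j + 2 * D + 1 < k → (fwdDiff 1)^[2 * D + 1] (fun i => (∑ t, x t i ^ 2) + τ) j = 0 := by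
  intro j hj
  choose P hPd hP using fun t => exists_poly (hx t)
  set S : ℚ[X] := ∑ t, P t ^ 2 + C (τ : ℚ) with hS
  have hSd : S.natDegree < 2 * D + 1 := by
    refine Nat.lt_succ_iff.2 ((natDegree_add_le _ _).trans (max_le ?_ (by simp)))
    exact natDegree_sum_le_of_forall_le _ _ fun t _ =>
      natDegree_pow_le.trans (Nat.mul_le_mul_left 2 (hPd t))
  have h := congrFun (fwdDiff_iter_eq_zero_of_degree_lt hSd) (j : ℚ)
  rw [Pi.zero_apply, fwdDiff_iter_eq_sum_shift] at h
  rw [fwdDiff_iter_eq_sum_shift, ← Int.cast_inj (α := ℚ), Int.cast_sum, Int.cast_zero, ← h]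
  refine sum_congr rfl fun s hs => ?_
  simp only [mem_range] at hs
  have hval : S.eval ((j + s : ℕ) : ℚ) = (((∑ t, x t (j + s) ^ 2) + τ : ℤ) : ℚ) := by
    simp only [hS, eval_add, eval_finsetSum, eval_pow, eval_C, hP _ (j + s) (by omega)]
    push_cast
    rfl
  simp only [zsmul_eq_mul, smul_eq_mul, mul_one, nsmul_eq_mul, Int.cast_mul]
  rw [← hval]
  push_cast
  ring_nf

/-- No carries: small digits with vanishing value are zero. -/
lemma digits_zero {B : ℤ} : ∀ {d : ℕ} {c : Fin d → ℤ}, (∀ t, |c t| < B) →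
    ∑ t, c t * B ^ (t : ℕ) = 0 → ∀ t, c t = 0
  | 0, _, _, _ => fun t => t.elim0
  | d + 1, c, hc, h => by
    rw [Fin.sum_univ_succ] at h
    simp only [Fin.val_zero, pow_zero, mul_one, Fin.val_succ, pow_succ, ← mul_assoc,
      ← Finset.sum_mul] at h
    have hB : 0 < B := (abs_nonneg _).trans_lt (hc 0)
    have h0 : c 0 = 0 := Int.eq_zero_of_abs_lt_dvd
      ⟨-(∑ t : Fin d, c t.succ * B ^ (t : ℕ)), by linarith⟩ (hc 0)
    rw [h0, zero_add, mul_eq_zero] at h
    intro t
    refine Fin.cases h0 (fun i => ?_) t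
    exact digits_zero (fun t => hc t.succ) (h.resolve_right hB.ne') i

/-- The value of a digit vector in base `B`. -/
def code {d : ℕ} (B : ℤ) (x : Fin d → ℤ) : ℤ := ∑ t, x t * B ^ (t : ℕ)

lemma abs_fwdDiff_iter_lt {m : ℤ} : ∀ (r : ℕ) {x : ℕ → ℤ} {j : ℕ},
    (∀ i ≤ r + 1, 0 ≤ x (j + i) ∧ x (j + i) < m) → |(fwdDiff 1)^[r + 1] x j| < 2 ^ r * m
  | 0, x, j, h => by
    have h0 := h 0 (by omega)
    have h1 := h 1 (by omega)
    simp only [zero_add, Function.iterate_one, fwdDiff, pow_zero, one_mul, add_zero] at *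
    rw [abs_lt]
    omega
  | r + 1, x, j, h => by
    have a := abs_fwdDiff_iter_lt r (x := x) (j := j) fun i hi => h i (by omega)
    have b := abs_fwdDiff_iter_lt r (x := x) (j := j + 1) fun i hi => by
      rw [add_assoc]; exact h (1 + i) (by omega)
    rw [Function.iterate_succ_apply']
    refine (abs_sub _ _).trans_lt ?_
    rw [pow_succ]
    linarith

/-- Differences commute with the digit value. -/
lemma fwdDiff_iter_code {d : ℕ} (B : ℤ) (r : ℕ) (x : ℕ → Fin d → ℤ) (j : ℕ) :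
    (fwdDiff 1)^[r] (fun i => code B (x i)) j = code B fun t => (fwdDiff 1)^[r] (fun i => x i t) j := by
  simp only [fwdDiff_iter_eq_sum_shift, code, zsmul_eq_mul, Finset.mul_sum, Finset.sum_mul]
  rw [Finset.sum_comm]
  simp [mul_assoc]

end Vale.Agent.P057
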