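import Vale.Agent.P057.Defs
import Vale.Agent.P057.DigitCore

/-!
# P057: the digit step
-/

namespace Vale.Agent.P057

open Finset Function Filter

lemma code_bounds {m : ℕ} {B : ℤ} (hB : (m : ℤ) ≤ B) : ∀ {d : ℕ} (y : Fin d → Fin m),
    0 ≤ code B (fun t => (y t : ℤ)) ∧ code B (fun t => (y t : ℤ)) < B ^ d
  | 0, _ => by simp [code]
  | d + 1, y => by
    have ih := code_bounds hB fun t => y t.succ
    unfold code at ih ⊢
    rw [Fin.sum_univ_succ]
    simp only [Fin.val_zero, pow_zero, mul_one, Fin.val_succ, pow_succ, ← mul_assoc,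
      ← Finset.sum_mul]
    have h0 : ((y 0 : ℕ) : ℤ) < B := lt_of_lt_of_le (by exact_mod_cast (y 0).2) hB
    have hB0 : 0 ≤ B := le_trans (by positivity) hB
    refine ⟨add_nonneg (by positivity) (mul_nonneg ih.1 hB0), ?_⟩
    nlinarith [Int.add_one_le_iff.2 ih.2]

/-- The digit step, combinatorial form. -/
theorem digit_step {D k d m M : ℕ} (hk : 2 * D + 1 ≤ k) (A' : Finset ℤ) (hfree : Free (2 * D) k A')
    (hA' : ∀ a ∈ A', 0 ≤ a ∧ a < (M : ℤ)) (hM : d * m ^ 2 ≤ M) :
    ∃ A : Finset ℤ, (∀ a ∈ A, 0 ≤ a ∧ a < ((2 : ℤ) ^ D * m) ^ d) ∧ Free D k A ∧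
      m ^ d * A'.card ≤ 2 * M * A.card := by
  classical
  set B : ℤ := 2 ^ D * m with hB
  set sq : (Fin d → Fin m) → ℤ := fun y => ∑ t, ((y t : ℕ) : ℤ) ^ 2 with hsq
  set F : ℤ → Finset (Fin d → Fin m) := fun τ => univ.filter fun y => sq y + τ ∈ A' with hF
  -- some translate catches a proportion of the vectors
  obtain ⟨τ, hτ⟩ : ∃ τ, m ^ d * A'.card ≤ 2 * M * (F τ).card := by
    rcases Nat.eq_zero_or_pos (m ^ d * A'.card) with h0 | h0
    · exact ⟨0, by omega⟩
    have hsum : ∑ τ ∈ Finset.Ico (-(M : ℤ)) M, (F τ).card = m ^ d * A'.card := by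
      simp only [hF, card_filter]
      rw [sum_comm]
      have : ∀ y : Fin d → Fin m,
          (∑ τ ∈ Finset.Ico (-(M : ℤ)) M, if sq y + τ ∈ A' then 1 else 0) = A'.card := by
        intro y
        rw [← card_filter]
        refine card_bij (fun τ _ => sq y + τ) (fun τ hτ => (mem_filter.1 hτ).2)
          (fun a _ b _ h => by omega) fun a ha => ⟨a - sq y, ?_, by ring⟩
        have h1 := hA' a ha
        have h2 : sq y ≤ (d : ℤ) * (m : ℤ) ^ 2 := by
          have := sum_le_card_nsmul univ (fun t => ((y t : ℕ) : ℤ) ^ 2) ((m : ℤ) ^ 2) fun t _ =>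
            pow_le_pow_left₀ (by positivity) (by exact_mod_cast (y t).2.le) 2
          simpa [hsq] using this
        have h3 : 0 ≤ sq y := sum_nonneg fun t _ => sq_nonneg _
        have h4 : (d : ℤ) * (m : ℤ) ^ 2 ≤ M := by exact_mod_cast hM
        exact mem_filter.2 ⟨mem_Ico.2 ⟨by omega, by omega⟩, by simpa using ha⟩
      simp [this]
    have hne : (Finset.Ico (-(M : ℤ)) M).Nonempty := by
      rcases (Finset.Ico (-(M : ℤ)) M).eq_empty_or_nonempty with h | h
      · rw [h, sum_empty] at hsum; omega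
      · exact h
    obtain ⟨τ, -, hmax⟩ := exists_max_image _ (fun τ => (F τ).card) hne
    refine ⟨τ, ?_⟩
    rw [← hsum]
    refine (sum_le_card_nsmul _ _ _ hmax).trans (le_of_eq ?_)
    rw [Int.card_Ico, smul_eq_mul]
    congr 1
    omega
  rcases Nat.eq_zero_or_pos m with hm | hm
  · rcases Nat.eq_zero_or_pos d with hd | hd
    · refine ⟨(F τ).image fun y => code B fun t => ((y t : ℕ) : ℤ), ?_, ?_, ?_⟩
      · subst hd
        simp [code]
      · subst hd
        intro p hp _ j hj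
        have a := hp j hj
        have b := hp 0 (by omega)
        simp only [mem_image, code, univ_eq_empty, sum_empty] at a b
        obtain ⟨_, _, ha⟩ := a
        obtain ⟨_, _, hb⟩ := b
        exact ha.symm.trans hb
      · subst hd
        rw [card_image_of_injective _ (fun a b _ => funext fun t => t.elim0)]
        exact hτ
    · exact ⟨∅, by simp, fun p hp _ j hj => by simpa using hp j hj,
        by simp [hm, zero_pow hd.ne']⟩
  have hmB : (m : ℤ) ≤ B := le_mul_of_one_le_left (by positivity) (one_le_pow₀ (by norm_num))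
  have hinj : Injective fun y : Fin d → Fin m => code B fun t => ((y t : ℕ) : ℤ) := by
    intro a b hab
    have := digits_zero (B := B) (c := fun t => ((a t : ℕ) : ℤ) - (b t : ℕ)) (fun t => by
      have := (a t).2
      have := (b t).2
      rw [abs_lt]; omega) (by
      simp only [sub_mul, sum_sub_distrib]
      exact sub_eq_zero.2 hab)
    funext t
    have := this t
    exact Fin.ext (by omega)
  refine ⟨(F τ).image fun y => code B fun t => ((y t : ℕ) : ℤ), ?_, ?_, ?_⟩
  · intro a ha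
    obtain ⟨y, -, rfl⟩ := mem_image.1 ha
    exact code_bounds hmB y
  · intro p hp hdiff
    have hk0 : 0 < k := by omega
    obtain ⟨y0, hy0, -⟩ := mem_image.1 (hp 0 hk0)
    have hch : ∀ j, ∃ y, y ∈ F τ ∧ (j < k → code B (fun t => ((y t : ℕ) : ℤ)) = p j) := by
      intro j
      by_cases hj : j < k
      · obtain ⟨y, hy, e⟩ := mem_image.1 (hp j hj)
        exact ⟨y, hy, fun _ => e⟩
      · exact ⟨y0, hy0, fun h => absurd h hj⟩
    choose y hy hyp using hch
    set x : Fin d → ℕ → ℤ := fun t j => ((y j t : ℕ) : ℤ) with hx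
    have hxd : ∀ t j, j + D + 1 < k → (fwdDiff 1)^[D + 1] (x t) j = 0 := by
      intro t j hj
      refine digits_zero (B := B) (c := fun t => (fwdDiff 1)^[D + 1] (x t) j) (fun t => ?_) ?_ t
      · refine abs_fwdDiff_iter_lt D fun i _ => ⟨by positivity, ?_⟩
        simp only [hx]
        exact_mod_cast (y (j + i) t).2
      · have h := hdiff j hj
        rw [fwdDiff_iter_eq_sum_shift] at h
        have e := fwdDiff_iter_code B (D + 1) (fun i t => x t i) j
        simp only [code] at e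
        rw [← e, fwdDiff_iter_eq_sum_shift, ← h]
        refine sum_congr rfl fun s hs => ?_
        have hlt : j + s • 1 < k := by simp only [mem_range] at hs; simp; omega
        rw [← hyp _ hlt]
        rfl
    have hs := hfree (fun j => (∑ t, x t j ^ 2) + τ)
      (fun j _ => (mem_filter.1 (hy j)).2) (fwdDiff_sum_sq_eq_zero hxd τ)
    have hconst := const_of_sum_sq hk hxd (e := ∑ t, x t 0 ^ 2) fun j hj => by
      simpa using hs j hj
    intro j hj
    rw [← hyp j hj, ← hyp 0 hk0]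
    congr 1
    funext t
    exact hconst t j hj
  · rw [card_image_of_injective _ hinj]
    exact hτ

/-- Choice of the digit length and size. -/
lemma digit_params (D q : ℕ) (hq : 1 ≤ q) {lam η : ℝ} (hlam : 0 < lam) (hη : 0 < η) (T : ℝ) :
    ∀ᶠ N : ℕ in atTop, ∃ d m : ℕ, 0 < d ∧ T ≤ m ∧ ((2 : ℝ) ^ D * m) ^ d ≤ N ∧
      (N : ℝ) ≤ 2 * ((2 : ℝ) ^ D * m) ^ d ∧
      (d : ℝ) ≤ lam * Real.log N ^ ((1 : ℝ) / (q + 1 : ℕ)) + 1 ∧
      Real.log ((d * m ^ 2 : ℕ) : ℝ) ≤
        (2 / lam + η) * (Real.log N ^ ((1 : ℝ) / (q + 1 : ℕ))) ^ q := by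
  have hu : Tendsto (fun N : ℕ => Real.log N ^ ((1 : ℝ) / (q + 1 : ℕ))) atTop atTop :=
    (tendsto_rpow_atTop (by positivity)).comp
      (Real.tendsto_log_atTop.comp tendsto_natCast_atTop_atTop)
  filter_upwards [hu.eventually_ge_atTop
    (1 + 1 / lam + 2 * lam + (4 * lam + 4) / η ^ 2 + 2 ^ (D + 2) * (2 * lam + |T|) * (2 * lam) ^ 2),
    eventually_ge_atTop 2] with N hN h2
  set L := Real.log (N : ℝ) with hL
  set u := L ^ ((1 : ℝ) / (q + 1 : ℕ)) with hudef
  have hN2 : (2 : ℝ) ≤ N := by exact_mod_cast h2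
  have hL0 : 0 ≤ L := Real.log_nonneg (by linarith)
  have huL : u ^ (q + 1) = L := by
    rw [hudef, one_div, Real.rpow_inv_natCast_pow hL0 (Nat.succ_ne_zero q)]
  have t1 : (0 : ℝ) ≤ 1 / lam := by positivity
  have t2 : 0 ≤ (4 * lam + 4) / η ^ 2 := by positivity
  have t3 : (0 : ℝ) ≤ 2 ^ (D + 2) * (2 * lam + |T|) * (2 * lam) ^ 2 := by positivity
  have hu1 : 1 ≤ u := by linarith
  have hlu : 1 ≤ lam * u := by
    have : 1 / lam ≤ u := by linarith
    rwa [div_le_iff₀ hlam, mul_comm] at this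
  set d := ⌈lam * u⌉₊ with hd
  have hd_ge : lam * u ≤ d := Nat.le_ceil _
  have hd_le : (d : ℝ) ≤ lam * u + 1 := (Nat.ceil_lt_add_one (by positivity)).le
  have hd1 : (1 : ℝ) ≤ d := hlu.trans hd_ge
  have hdpos : 0 < d := by exact_mod_cast (zero_lt_one' ℝ).trans_le hd1
  have huq : u ≤ u ^ q := le_self_pow₀ hu1 (Nat.one_le_iff_ne_zero.1 hq)
  have hLd : u / (2 * lam) ≤ L / d := by
    rw [div_le_div_iff₀ (by positivity) (by linarith), ← huL, pow_succ]
    have : u * d ≤ u * (2 * (lam * u)) := mul_le_mul_of_nonneg_left (by linarith) (by linarith)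
    nlinarith [mul_le_mul_of_nonneg_right huq (by positivity : (0 : ℝ) ≤ u * lam)]
  have hexp : 2 ^ (D + 1) * (2 * lam * u + |T| * u) ≤ Real.exp (L / d) := by
    refine le_trans ?_ ((Real.exp_le_exp.2 hLd))
    have h0 : 0 ≤ u / (2 * lam) := by positivity
    refine le_trans ?_ (Real.quadratic_le_exp_of_nonneg h0)
    have hb : 2 ^ (D + 2) * (2 * lam + |T|) * (2 * lam) ^ 2 ≤ u := by linarith
    have : (2 : ℝ) ^ (D + 1) * (2 * lam * u + |T| * u) ≤ (u / (2 * lam)) ^ 2 / 2 := by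
      rw [div_pow, div_div, le_div_iff₀ (by positivity)]
      have := mul_le_mul_of_nonneg_left hb (show 0 ≤ u by linarith)
      calc _ = u * (2 ^ (D + 2) * (2 * lam + |T|) * (2 * lam) ^ 2) := by ring
        _ ≤ u * u := this
        _ = u ^ 2 := by ring
    linarith
  set X := Real.exp (L / d) / 2 ^ D with hX
  set m := ⌊X⌋₊ with hm
  have hX0 : 0 ≤ X := by positivity
  have hXbig : 2 * (2 * lam * u + |T| * u) ≤ X := by
    rw [hX, le_div_iff₀ (by positivity)]
    calc _ = (2 : ℝ) ^ (D + 1) * (2 * lam * u + |T| * u) := by ring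
      _ ≤ _ := hexp
  have hXd : (2 ^ D * X) ^ d = (N : ℝ) := by
    rw [hX, mul_div_cancel₀ _ (by positivity), ← Real.exp_nat_mul,
      mul_div_cancel₀ _ (by linarith : (d : ℝ) ≠ 0), hL, Real.exp_log (by linarith)]
  have hmle : (m : ℝ) ≤ X := Nat.floor_le hX0
  have hmge : X - 1 ≤ m := by linarith [Nat.lt_floor_add_one X]
  have hT : T ≤ m := by
    have : T ≤ |T| * u := (le_abs_self T).trans (le_mul_of_one_le_right (abs_nonneg _) hu1)
    linarith [abs_nonneg T, mul_nonneg (abs_nonneg T) (by linarith : (0 : ℝ) ≤ u)]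
  refine ⟨d, m, hdpos, hT, ?_, ?_, hd_le, ?_⟩
  · rw [← hXd]
    gcongr
  · have hX2d : 2 * (d : ℝ) ≤ X := by
      linarith [mul_nonneg (abs_nonneg T) (by linarith : (0 : ℝ) ≤ u)]
    have hXp : 0 < X := by linarith
    have hber := one_add_mul_le_pow (a := -(1 / X)) (by
      have : 1 / X ≤ 1 := (div_le_one hXp).2 (by linarith)
      linarith) d
    have hhalf : (1 / 2 : ℝ) ≤ (1 + -(1 / X)) ^ d := by
      refine le_trans ?_ hber
      have : (d : ℝ) * (1 / X) ≤ 1 / 2 := by rw [mul_one_div, div_le_iff₀ hXp]; linarith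
      linarith
    calc (N : ℝ) = 2 * (1 / 2) * (2 ^ D * X) ^ d := by rw [hXd]; ring
      _ ≤ 2 * (1 + -(1 / X)) ^ d * (2 ^ D * X) ^ d := by gcongr
      _ = 2 * (2 ^ D * (X - 1)) ^ d := by
        rw [mul_assoc, ← mul_pow]
        congr 2
        field_simp
        ring
      _ ≤ _ := by
        have : 0 ≤ X - 1 := by linarith
        gcongr
  · have hm0 : 0 < (m : ℝ) := by
      linarith [mul_nonneg (abs_nonneg T) (by linarith : (0 : ℝ) ≤ u)]
    rw [Nat.cast_mul, Nat.cast_pow, Real.log_mul (by linarith) (by positivity), Real.log_pow]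
    have hlogm : Real.log m ≤ L / d := by
      have : X ≤ Real.exp (L / d) := div_le_self (Real.exp_pos _).le (one_le_pow₀ (by norm_num))
      simpa using Real.log_le_log hm0 (hmle.trans this)
    have hLd2 : L / d ≤ u ^ q / lam := by
      rw [div_le_div_iff₀ (by linarith) hlam, ← huL, pow_succ]
      nlinarith [mul_le_mul_of_nonneg_left hd_ge (by positivity : (0 : ℝ) ≤ u ^ q)]
    have hlogd : Real.log d ≤ η * u ^ q := by
      have h1 := Real.log_le_rpow_div (x := (d : ℝ)) (by linarith) (ε := 1 / 2) (by norm_num)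
      rw [← Real.sqrt_eq_rpow, div_div_eq_mul_div, div_one] at h1
      have hb : (4 * lam + 4) / η ^ 2 ≤ u := by linarith
      rw [div_le_iff₀ (by positivity)] at hb
      have h2 : Real.sqrt d * 2 ≤ η * u := by
        have h3 : Real.sqrt d ≤ η * u / 2 := by
          rw [Real.sqrt_le_iff]
          refine ⟨by positivity, ?_⟩
          have := mul_le_mul_of_nonneg_left hb (show 0 ≤ u by linarith)
          nlinarith
        linarith
      exact (h1.trans h2).trans (mul_le_mul_of_nonneg_left huq hη.le)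
    push_cast
    calc Real.log d + 2 * Real.log m ≤ η * u ^ q + 2 * (u ^ q / lam) := by linarith
      _ = _ := by ring

/-- The digit step. -/
theorem good_digit {D k q : ℕ} (hq : 1 ≤ q) (hk : 2 * D + 1 ≤ k) {C : ℝ} (hC : 0 ≤ C)
    (h : Good (2 * D) k q C) {lam : ℝ} (hlam : 0 < lam) :
    Good D k (q + 1) (D * Real.log 2 * lam + C * (2 / lam) ^ ((1 : ℝ) / q)) := by
  intro ε hε
  -- small perturbations
  obtain ⟨δ, hδ, hδε⟩ : ∃ δ : ℝ, 0 < δ ∧
      (C + δ) * (2 / lam + δ) ^ ((1 : ℝ) / q) < C * (2 / lam) ^ ((1 : ℝ) / q) + ε / 2 := by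
    have hcont : ContinuousAt (fun δ : ℝ => (C + δ) * (2 / lam + δ) ^ ((1 : ℝ) / q)) 0 := by
      refine ContinuousAt.mul (by fun_prop) (ContinuousAt.rpow_const (by fun_prop) (Or.inl ?_))
      simp [hlam.ne']
    have hlt := hcont.eventually_lt continuousAt_const
      (show (C + 0) * (2 / lam + 0) ^ ((1 : ℝ) / q) < C * (2 / lam) ^ ((1 : ℝ) / q) + ε / 2 by
        simp only [add_zero]; linarith)
    obtain ⟨δ, hδ, hpos⟩ :=
      ((hlt.filter_mono nhdsWithin_le_nhds).and (self_mem_nhdsWithin (s := Set.Ioi (0 : ℝ)))).exists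
    exact ⟨δ, hpos, hδ⟩
  obtain ⟨N₁, hN₁⟩ := h δ hδ
  have hu : Tendsto (fun N : ℕ => Real.log N ^ ((1 : ℝ) / (q + 1 : ℕ))) atTop atTop :=
    (tendsto_rpow_atTop (by positivity)).comp
      (Real.tendsto_log_atTop.comp tendsto_natCast_atTop_atTop)
  have hl2 : 0 ≤ Real.log 2 := Real.log_nonneg (by norm_num)
  have hev := (digit_params D q hq hlam hδ ((N₁ : ℝ) + 2)).and
    (hu.eventually_ge_atTop (2 * (D * Real.log 2 + Real.log 4) / ε))
  obtain ⟨N₀, hN₀⟩ := eventually_atTop.1 hev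
  refine ⟨N₀, fun N hN => ?_⟩
  obtain ⟨⟨d, m, hd0, hmT, hup, hlow, hdle, hlogM⟩, hbig⟩ := hN₀ N hN
  set u := Real.log (N : ℝ) ^ ((1 : ℝ) / (q + 1 : ℕ)) with hudef
  have hu0 : 0 ≤ u := Real.rpow_nonneg (Real.log_natCast_nonneg N) _
  set M := d * m ^ 2 with hM
  have hmN : N₁ + 2 ≤ m := by exact_mod_cast hmT
  have hmM : m ≤ M :=
    (Nat.le_self_pow two_ne_zero m).trans (Nat.le_mul_of_pos_left _ hd0)
  obtain ⟨A', hA', hfree, hcard⟩ := hN₁ M (by omega)
  obtain ⟨A, hA, hAfree, hAcard⟩ := digit_step hk A' hfree hA' le_rfl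
  refine ⟨A, fun a ha => ⟨(hA a ha).1, lt_of_lt_of_le (hA a ha).2 ?_⟩, hAfree, ?_⟩
  · have : ((((2 : ℤ) ^ D * m) ^ d : ℤ) : ℝ) ≤ ((N : ℤ) : ℝ) := by push_cast; exact hup
    exact_mod_cast this
  have hm0 : (0 : ℝ) < m := by exact_mod_cast (show 0 < m by omega)
  have hM0 : (0 : ℝ) < (M : ℝ) := by exact_mod_cast (show 0 < M by omega)
  have hc : (m : ℝ) ^ d * A'.card ≤ 2 * M * A.card := by exact_mod_cast hAcard
  -- the exponent of the smaller set
  have hexp' : (C + δ) * Real.log (M : ℝ) ^ ((1 : ℝ) / q) ≤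
      (C * (2 / lam) ^ ((1 : ℝ) / q) + ε / 2) * u := by
    have h1 : Real.log (M : ℝ) ^ ((1 : ℝ) / q) ≤ (2 / lam + δ) ^ ((1 : ℝ) / q) * u := by
      refine (Real.rpow_le_rpow (Real.log_natCast_nonneg M) hlogM (by positivity)).trans_eq ?_
      rw [Real.mul_rpow (by positivity) (by positivity), one_div (q : ℝ),
        Real.pow_rpow_inv_natCast hu0 (Nat.one_le_iff_ne_zero.1 hq)]
    calc _ ≤ (C + δ) * ((2 / lam + δ) ^ ((1 : ℝ) / q) * u) :=
          mul_le_mul_of_nonneg_left h1 (by linarith)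
      _ = (C + δ) * (2 / lam + δ) ^ ((1 : ℝ) / q) * u := by ring
      _ ≤ _ := mul_le_mul_of_nonneg_right hδε.le hu0
  have hlhs : (m : ℝ) ^ d * Real.exp (-((C * (2 / lam) ^ ((1 : ℝ) / q) + ε / 2) * u)) ≤
      2 * A.card := by
    have h1 : (m : ℝ) ^ d * (M * Real.exp (-((C * (2 / lam) ^ ((1 : ℝ) / q) + ε / 2) * u))) ≤
        2 * M * A.card := by
      refine le_trans ?_ hc
      refine mul_le_mul_of_nonneg_left (le_trans ?_ hcard) (by positivity)
      gcongr
    nlinarith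
  -- compare with the claimed bound
  have h2D : ((2 : ℝ) ^ D) ^ d = Real.exp (D * Real.log 2 * d) := by
    rw [show (D : ℝ) * Real.log 2 * d = ((D * d : ℕ) : ℝ) * Real.log 2 by push_cast; ring,
      Real.exp_nat_mul, Real.exp_log (by norm_num), pow_mul]
  rw [mul_pow] at hlow
  rw [h2D] at hlow
  have hE : Real.log 4 + D * Real.log 2 * d +
      (C * (2 / lam) ^ ((1 : ℝ) / q) + ε / 2) * u ≤
      (D * Real.log 2 * lam + C * (2 / lam) ^ ((1 : ℝ) / q) + ε) * u := by
    rw [div_le_iff₀ hε] at hbig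
    have := mul_le_mul_of_nonneg_left hdle (show (0 : ℝ) ≤ D * Real.log 2 by positivity)
    nlinarith
  calc (N : ℝ) * Real.exp (-((D * Real.log 2 * lam + C * (2 / lam) ^ ((1 : ℝ) / q) + ε) * u))
      ≤ 2 * (Real.exp (D * Real.log 2 * d) * (m : ℝ) ^ d) *
          Real.exp (-(Real.log 4 + D * Real.log 2 * d +
            (C * (2 / lam) ^ ((1 : ℝ) / q) + ε / 2) * u)) := by gcongr
    _ = (m : ℝ) ^ d * Real.exp (-((C * (2 / lam) ^ ((1 : ℝ) / q) + ε / 2) * u)) / 2 := by
        rw [neg_add, neg_add, Real.exp_add, Real.exp_add, Real.exp_neg, Real.exp_log (by norm_num),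
          Real.exp_neg (D * Real.log 2 * d)]
        field_simp
        ring
    _ ≤ _ := by linarith

end Vale.Agent.P057
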